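import Vale.Agent.P212.Bdl.B4

/-! The Bott projections on a set of components. -/

namespace Vale.Agent.P212.H268

open Vale.Agent.P212 NNReal BoundedContinuousFunction Matrix
open scoped Matrix.Norms.L2Operator

section General

variable {J : Type}

theorem proj_idem (S : Set J) : proj S * proj S = proj S := by rw [proj_mul_proj, Set.inter_self]

/-- The *-homomorphism `(T, c) ↦ P T + c (1 - P)` on the operators commuting with `P`. -/
noncomputable def psi (S : Set J) : (redS S × ℂ) →⋆ₐ[ℂ] (L2 J →L[ℂ] L2 J) where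
  toFun p := proj S * p.1.1 + p.2 • (1 - proj S)
  map_one' := by simp
  map_zero' := by simp
  map_add' p q := by
    simp only [Prod.fst_add, Prod.snd_add, AddMemClass.coe_add, mul_add, add_smul]
    abel
  map_mul' p q := by
    have hp := (mem_redS.1 p.1.2).eq
    have hq := (mem_redS.1 q.1.2).eq
    have hPP := proj_idem S
    change proj S * (p.1.1 * q.1.1) + (p.2 * q.2) • (1 - proj S) =
      (proj S * p.1.1 + p.2 • (1 - proj S)) * (proj S * q.1.1 + q.2 • (1 - proj S))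
    have h1 : proj S * p.1.1 * (proj S * q.1.1) = proj S * (p.1.1 * q.1.1) := by
      rw [mul_assoc, ← mul_assoc p.1.1, ← hp, mul_assoc, ← mul_assoc (proj S) (proj S), hPP]
    have h2 : proj S * p.1.1 * (1 - proj S) = 0 := by
      rw [mul_sub, mul_one, mul_assoc, ← hp, ← mul_assoc, hPP, sub_self]
    have h3 : (1 - proj S) * (proj S * q.1.1) = 0 := by
      rw [← mul_assoc, sub_mul, one_mul, hPP, sub_self, zero_mul]
    have h4 : (1 - proj S) * (1 - proj S) = 1 - proj S := by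
      rw [mul_sub, mul_one, sub_mul, one_mul, hPP, sub_self, sub_zero]
    rw [add_mul, mul_add, mul_add, h1, mul_smul_comm, h2, smul_zero, add_zero, smul_mul_assoc, h3,
      smul_zero, zero_add, smul_mul_smul_comm, h4]
  commutes' c := by
    change proj S * (algebraMap ℂ (L2 J →L[ℂ] L2 J) c) + c • (1 - proj S) = _
    rw [Algebra.algebraMap_eq_smul_one, mul_smul_comm, mul_one, ← smul_add, add_sub_cancel]
  map_star' p := by
    have hp := (mem_redS.1 (star p.1).2).eq
    change proj S * star p.1.1 + star p.2 • (1 - proj S) =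
      star (proj S * p.1.1 + p.2 • (1 - proj S))
    rw [star_add, star_mul, star_proj, star_smul, star_sub, star_one, star_proj]
    congr 1

theorem psi_apply (S : Set J) (p : redS S × ℂ) :
    psi S p = proj S * p.1.1 + p.2 • (1 - proj S) := rfl

/-- The part over `S` of an operator commuting with the projection, extended by `1`. -/
noncomputable def cut (S : Set J) (T : L2 J →L[ℂ] L2 J) : L2 J →L[ℂ] L2 J :=
  proj S * T + (1 - proj S)

theorem cut_eq {S : Set J} {T : L2 J →L[ℂ] L2 J} (hT : Commute (proj S) T) :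
    cut S T = psi S (⟨T, mem_redS.2 hT⟩, 1) := by
  rw [psi_apply, one_smul]
  rfl

theorem cut_sub_one (S : Set J) (T : L2 J →L[ℂ] L2 J) : cut S T - 1 = proj S * (T - 1) := by
  rw [cut, mul_sub, mul_one]
  abel

theorem cut_one (S : Set J) : cut S (1 : L2 J →L[ℂ] L2 J) = 1 := by
  rw [cut, mul_one, add_sub_cancel]

theorem cut_unitary {S : Set J} {T : L2 J →L[ℂ] L2 J} (hT : Commute (proj S) T)
    (h : star T * T = 1 ∧ T * star T = 1) :
    star (cut S T) * cut S T = 1 ∧ cut S T * star (cut S T) = 1 := by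
  have e1 : star (⟨T, mem_redS.2 hT⟩ : redS S) * ⟨T, mem_redS.2 hT⟩ = 1 := Subtype.ext h.1
  have e2 : (⟨T, mem_redS.2 hT⟩ : redS S) * star ⟨T, mem_redS.2 hT⟩ = 1 := Subtype.ext h.2
  rw [cut_eq hT, ← map_star, ← map_mul, ← map_mul]
  constructor
  · have : star ((⟨T, mem_redS.2 hT⟩, 1) : redS S × ℂ) * (⟨T, mem_redS.2 hT⟩, 1) = 1 := by
      apply Prod.ext
      · exact e1
      · simp
    rw [this, map_one]
  · have : ((⟨T, mem_redS.2 hT⟩, 1) : redS S × ℂ) * star (⟨T, mem_redS.2 hT⟩, 1) = 1 := by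
      apply Prod.ext
      · exact e2
      · simp
    rw [this, map_one]

theorem cut_commute {S : Set J} {T T' : L2 J →L[ℂ] L2 J} (hT : Commute (proj S) T)
    (hT' : Commute (proj S) T') (h : Commute T T') : Commute (cut S T) (cut S T') := by
  rw [cut_eq hT, cut_eq hT']
  have : Commute ((⟨T, mem_redS.2 hT⟩, 1) : redS S × ℂ) (⟨T', mem_redS.2 hT'⟩, 1) := by
    apply Prod.ext
    · exact Subtype.ext h.eq
    · rfl
  exact this.map (psi S)

open Classical in
theorem ent_cut (S : Set J) (T : L2 J →L[ℂ] L2 J) (j k : J) :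
    ent (cut S T) j k = if j ∈ S then ent T j k else if j = k then 1 else 0 := by
  have h1 : cut S T = proj S * T + (1 + (-1 : ℂ) • (proj S * 1)) := by
    rw [cut, mul_one, neg_one_smul, sub_eq_add_neg]
  rw [h1, ent_add, ent_add, ent_smul, ent_proj_mul, ent_proj_mul]
  by_cases h : j ∈ S
  · rw [Set.indicator_of_mem h, Set.indicator_of_mem h, if_pos h]
    ring
  · rw [Set.indicator_of_notMem h, Set.indicator_of_notMem h, if_neg h, ent_one]
    simp

open Classical in
theorem ent_proj_add (S : Set J) (T : L2 J →L[ℂ] L2 J) (c : ℂ) (j k : J) :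
    ent (proj S * T + c • (1 - proj S)) j k =
      if j ∈ S then ent T j k else if j = k then c else 0 := by
  have h1 : proj S * T + c • (1 - proj S) = proj S * T + (c • 1 + (-c : ℂ) • (proj S * 1)) := by
    rw [mul_one, neg_smul, smul_sub, sub_eq_add_neg]
  rw [h1, ent_add, ent_add, ent_smul, ent_smul, ent_proj_mul, ent_proj_mul, ent_one]
  by_cases h : j ∈ S
  · rw [Set.indicator_of_mem h, Set.indicator_of_mem h, if_pos h, ent_one]
    ring
  · rw [Set.indicator_of_notMem h, Set.indicator_of_notMem h, if_neg h]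
    simp

theorem bott_cut {S : Set J} {U V : L2 J →L[ℂ] L2 J} (hU : Commute (proj S) U)
    (hV : Commute (proj S) V) (q : Polynomial ℂ) (a b : Fin 2) :
    bott (cut S U) (cut S V) (hq q (cut S U)) a b =
      proj S * bott U V (hq q U) a b + bott (1 : ℂ) 1 (hq q 1) a b • (1 - proj S) := by
  set u : redS S := ⟨U, mem_redS.2 hU⟩
  set v : redS S := ⟨V, mem_redS.2 hV⟩
  have h1 := map_bott (psi S) (u, 1) (v, 1) (hq q (u, 1)) a b
  rw [map_hq] at h1
  rw [cut_eq hU, cut_eq hV, ← h1, psi_apply]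
  have h2 := map_bott (StarAlgHom.fst ℂ (redS S) ℂ) (u, 1) (v, 1) (hq q (u, 1)) a b
  have h3 := map_bott (StarAlgHom.snd ℂ (redS S) ℂ) (u, 1) (v, 1) (hq q (u, 1)) a b
  rw [map_hq] at h2 h3
  have h4 := map_bott (redS S).subtype u v (hq q u) a b
  rw [map_hq] at h4
  change (bott (u, (1 : ℂ)) (v, 1) (hq q (u, 1)) a b).1 = bott u v (hq q u) a b at h2
  change (bott (u, (1 : ℂ)) (v, 1) (hq q (u, 1)) a b).2 = bott 1 1 (hq q 1) a b at h3
  rw [h2, h3]
  congr 2

theorem bottE_cut {S : Set J} {U V : L2 J →L[ℂ] L2 J} (hU : Commute (proj S) U)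
    (hV : Commute (proj S) V) (a b : Fin 2) :
    bottE (cut S U) (cut S V) a b =
      proj S * bottE U V a b + e11 ℂ a b • (1 - proj S) := by
  set u : redS S := ⟨U, mem_redS.2 hU⟩
  set v : redS S := ⟨V, mem_redS.2 hV⟩
  have h1 := congrFun (congrFun (map_bottE (psi S) (u, 1) (v, 1)) a) b
  rw [cut_eq hU, cut_eq hV, ← h1, Matrix.map_apply, psi_apply]
  have h2 := congrFun (congrFun (map_bottE (StarAlgHom.fst ℂ (redS S) ℂ) (u, 1) (v, 1)) a) b
  have h3 := congrFun (congrFun (map_bottE (StarAlgHom.snd ℂ (redS S) ℂ) (u, 1) (v, 1)) a) b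
  have h4 := congrFun (congrFun (map_bottE (redS S).subtype u v) a) b
  change (bottE (u, (1 : ℂ)) (v, 1) a b).1 = bottE u v a b at h2
  change (bottE (u, (1 : ℂ)) (v, 1) a b).2 = bottE 1 1 a b at h3
  rw [h2, h3, bottE_one_left]
  congr 2

end General

section Roe

variable {X : Type} [MetricSpace X] [BddGeometry X]

omit [MetricSpace X] [BddGeometry X] in
theorem blk_proj_mul {J : Type} (s : J → X) (S : Set J) (T : L2 J →L[ℂ] L2 J) (x y : X) :
    blk s (proj S * T) x y = proj S * blk s T x y := by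
  unfold blk
  have h : proj (s ⁻¹' {x}) * proj S = proj S * proj (s ⁻¹' {x}) := by
    rw [proj_mul_proj, proj_mul_proj, Set.inter_comm]
  rw [← mul_assoc, h, mul_assoc, mul_assoc, mul_assoc]

omit [BddGeometry X] in
theorem isRoe_proj_mul {J : Type} {s : J → X} (S : Set J) {T : L2 J →L[ℂ] L2 J}
    (hT : IsRoe s T) : IsRoe s (proj S * T) := by
  obtain ⟨R, hR⟩ := hT.propagation
  refine ⟨⟨R, fun x y h => ?_⟩, fun x y => ?_⟩
  · rw [blk_proj_mul, hR x y h, mul_zero]
  · rw [blk_proj_mul]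
    exact (hT.compact x y).clm_comp (proj S)

theorem onRips_proj_mul {r ε : ℝ} (S : Set (X × ℕ)) {T : BX X} (hT : OnRips r ε T) :
    OnRips r ε (proj S * T) := by
  intro j k hjk
  refine hT j k fun h => hjk ?_
  rw [ent_proj_mul]
  by_cases hj : j ∈ S
  · rw [Set.indicator_of_mem hj, h]
  · rw [Set.indicator_of_notMem hj]

end Roe

section Tow

variable (τ : Tower) (I : Set ℕ)

/-- The basis vectors over the components with index in `I`. -/
def SI : Set (XT τ × ℕ) := {j | j.1.n ∈ I}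

theorem via_comp {m : ℕ} {π : Equiv.Perm (GI m)} (h : ∀ g, (π g).1 = g.1) (j : XT τ × ℕ) :
    ((π.viaEmbedding (ji τ m)) j).1.n = j.1.n := by
  by_cases hj : j ∈ Set.range (ji τ m)
  · obtain ⟨g, rfl⟩ := hj
    rw [Equiv.Perm.viaEmbedding_apply, fst_ji, fst_ji]
    change (π g).1.1 = g.1.1
    rw [h]
  · rw [Equiv.Perm.viaEmbedding_apply_of_notMem _ _ _ hj]

theorem commute_pL_SI {m : ℕ} {π : Equiv.Perm (GI m)} (h : ∀ g, (π g).1 = g.1) :
    Commute (proj (SI τ I)) (pL τ m π) := by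
  refine permL_commute_proj fun j => ?_
  change ((π.viaEmbedding (ji τ m)) j).1.n ∈ I ↔ j.1.n ∈ I
  rw [via_comp τ h]

theorem commute_Ubp_SI (m : ℕ) (s : ℝ) : Commute (proj (SI τ I)) (Ubp τ m s) :=
  ((commute_pL_SI τ I fun _ => rfl).smul_right _).add_right
    ((commute_pL_SI τ I fun _ => rfl).smul_right _)

theorem commute_Vbp_SI (m : ℕ) (s : ℝ) : Commute (proj (SI τ I)) (Vbp τ m s) :=
  ((commute_pL_SI τ I fun _ => rfl).smul_right _).add_right
    ((commute_pL_SI τ I fun _ => rfl).smul_right _)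

/-- The unitaries over the components in `I`. -/
noncomputable def UbI (m : ℕ) (s : ℝ) : BX (XT τ) := cut (SI τ I) (Ubp τ m s)

noncomputable def VbI (m : ℕ) (s : ℝ) : BX (XT τ) := cut (SI τ I) (Vbp τ m s)

theorem UbI_roe (m : ℕ) (s : ℝ) : IsRoe (gX (XT τ)) (UbI τ I m s - 1) := by
  rw [UbI, cut_sub_one]
  exact isRoe_proj_mul _ (Ubp_roe τ m s)

theorem VbI_roe (m : ℕ) (s : ℝ) : IsRoe (gX (XT τ)) (VbI τ I m s - 1) := by
  rw [VbI, cut_sub_one]
  exact isRoe_proj_mul _ (Vbp_roe τ m s)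

noncomputable def UelI (m : ℕ) (s : ℝ) : roeU (gX (XT τ)) :=
  ⟨UbI τ I m s, 1, by simpa using UbI_roe τ I m s⟩

noncomputable def VelI (m : ℕ) (s : ℝ) : roeU (gX (XT τ)) :=
  ⟨VbI τ I m s, 1, by simpa using VbI_roe τ I m s⟩

theorem UelI_unitary (m : ℕ) (s : ℝ) : UelI τ I m s ∈ unitary (roeU (gX (XT τ))) := by
  rw [Unitary.mem_iff]
  have h := cut_unitary (commute_Ubp_SI τ I m s) (Ubp_unitary τ m s)
  exact ⟨Subtype.ext h.1, Subtype.ext h.2⟩

theorem VelI_unitary (m : ℕ) (s : ℝ) : VelI τ I m s ∈ unitary (roeU (gX (XT τ))) := by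
  rw [Unitary.mem_iff]
  have h := cut_unitary (commute_Vbp_SI τ I m s) (Vbp_unitary τ m s)
  exact ⟨Subtype.ext h.1, Subtype.ext h.2⟩

theorem UelI_VelI_commute (m : ℕ) (s : ℝ) : Commute (UelI τ I m s) (VelI τ I m s) :=
  Subtype.ext (cut_commute (commute_Ubp_SI τ I m s) (commute_Vbp_SI τ I m s)
    (Ubp_Vbp_commute τ m s)).eq

theorem cut_comb {J : Type} (S : Set J) (T T' : L2 J →L[ℂ] L2 J) (s : ℝ) :
    cut S (ra s • T + rb s • T') = ra s • cut S T + rb s • cut S T' := by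
  have h1 : ra s • cut S T + rb s • cut S T' =
      proj S * (ra s • T + rb s • T') + (ra s + rb s) • (1 - proj S) := by
    rw [cut, cut, mul_add, mul_smul_comm, mul_smul_comm, add_smul, smul_add, smul_add]
    abel
  rw [h1, ra_add_rb, one_smul]
  rfl

theorem UelI_eq (m : ℕ) (s : ℝ) :
    UelI τ I m s = ra s • UelI τ I m 0 + rb s • UelI τ I m 1 := by
  apply Subtype.ext
  change cut _ (Ubp τ m s) = ra s • cut _ (Ubp τ m 0) + rb s • cut _ (Ubp τ m 1)
  rw [← cut_comb, Ubp_zero, Ubp_one, ← tX_mul_gsX]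
  rfl

theorem VelI_eq (m : ℕ) (s : ℝ) :
    VelI τ I m s = ra s • VelI τ I m 0 + rb s • VelI τ I m 1 := by
  apply Subtype.ext
  change cut _ (Vbp τ m s) = ra s • cut _ (Vbp τ m 0) + rb s • cut _ (Vbp τ m 1)
  rw [← cut_comb, Vbp_zero, Vbp_one, ← tY_mul_gsY]
  rfl

theorem isFam_UelI : IsFam 1 4 (fun m s => UelI τ I m s) := by
  refine ⟨fun m s => ?_, fun m s => ?_, fun m s => ?_, fun m s s' => ?_⟩
  · rw [one_smul]
    exact UbI_roe τ I m s
  · rw [one_smul]
    change OnRips 2 (4 / 2 ^ m) (UbI τ I m s - 1)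
    rw [UbI, cut_sub_one]
    exact onRips_proj_mul _ (onRips_Ubp τ m s)
  · exact (norm_le_one_of_mem_unitary (toMax_mem_unitary (UelI_unitary τ I m s))).trans
      (by norm_num)
  · rw [UelI_eq τ I m s, UelI_eq τ I m s', map_add, map_add, map_smul, map_smul, map_smul,
      map_smul]
    exact norm_rot_sub_le (norm_le_one_of_mem_unitary (toMax_mem_unitary (UelI_unitary τ I m 0)))
      (norm_le_one_of_mem_unitary (toMax_mem_unitary (UelI_unitary τ I m 1))) s s'

theorem isFam_VelI : IsFam 1 4 (fun m s => VelI τ I m s) := by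
  refine ⟨fun m s => ?_, fun m s => ?_, fun m s => ?_, fun m s s' => ?_⟩
  · rw [one_smul]
    exact VbI_roe τ I m s
  · rw [one_smul]
    change OnRips 2 (4 / 2 ^ m) (VbI τ I m s - 1)
    rw [VbI, cut_sub_one]
    exact onRips_proj_mul _ (onRips_Vbp τ m s)
  · exact (norm_le_one_of_mem_unitary (toMax_mem_unitary (VelI_unitary τ I m s))).trans
      (by norm_num)
  · rw [VelI_eq τ I m s, VelI_eq τ I m s', map_add, map_add, map_smul, map_smul, map_smul,
      map_smul]
    exact norm_rot_sub_le (norm_le_one_of_mem_unitary (toMax_mem_unitary (VelI_unitary τ I m 0)))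
      (norm_le_one_of_mem_unitary (toMax_mem_unitary (VelI_unitary τ I m 1))) s s'

/-- The family of polynomial Bott matrices. -/
noncomputable def bottFI (q : Polynomial ℂ) (a b : Fin 2) : ℕ → ℝ → roeU (gX (XT τ)) :=
  bott (fun m s => UelI τ I m s) (fun m s => VelI τ I m s) (hq q (fun m s => UelI τ I m s)) a b

theorem bottFI_mem (q : Polynomial ℂ) (a b : Fin 2) : bottFI τ I q a b ∈ locFam (XT τ) := by
  have hU : (fun m s => UelI τ I m s) ∈ locFam (XT τ) := ⟨1, 4, isFam_UelI τ I⟩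
  have hV : (fun m s => VelI τ I m s) ∈ locFam (XT τ) := ⟨1, 4, isFam_VelI τ I⟩
  exact bott_mem (locFam (XT τ)) hU hV (hq_mem (locFam (XT τ)) q hU) a b

theorem bottFI_apply (q : Polynomial ℂ) (a b : Fin 2) (m : ℕ) (s : ℝ) :
    bottFI τ I q a b m s = bott (UelI τ I m s) (VelI τ I m s) (hq q (UelI τ I m s)) a b := by
  have h1 := map_bott (evFam (X := XT τ) m s) (fun m s => UelI τ I m s)
    (fun m s => VelI τ I m s) (hq q (fun m s => UelI τ I m s)) a b
  rw [map_hq] at h1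
  exact h1

theorem bottFI_match {q : Polynomial ℂ} (hq0 : q.coeff 0 = 0) (a b : Fin 2) (m : ℕ) :
    bottFI τ I q a b m 1 = bottFI τ I q a b (m + 1) 0 := by
  rw [bottFI_apply, bottFI_apply]
  apply Subtype.ext
  have h1 := map_bott (roeU (gX (XT τ))).subtype (UelI τ I m 1) (VelI τ I m 1)
    (hq q (UelI τ I m 1)) a b
  have h2 := map_bott (roeU (gX (XT τ))).subtype (UelI τ I (m + 1) 0) (VelI τ I (m + 1) 0)
    (hq q (UelI τ I (m + 1) 0)) a b
  rw [map_hq] at h1 h2
  refine h1.trans (Eq.trans ?_ h2.symm)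
  change bott (cut (SI τ I) (Ubp τ m 1)) (cut (SI τ I) (Vbp τ m 1))
      (hq q (cut (SI τ I) (Ubp τ m 1))) a b =
    bott (cut (SI τ I) (Ubp τ (m + 1) 0)) (cut (SI τ I) (Vbp τ (m + 1) 0))
      (hq q (cut (SI τ I) (Ubp τ (m + 1) 0))) a b
  rw [bott_cut (commute_Ubp_SI τ I m 1) (commute_Vbp_SI τ I m 1),
    bott_cut (commute_Ubp_SI τ I (m + 1) 0) (commute_Vbp_SI τ I (m + 1) 0),
    Ubp_one, Vbp_one, Ubp_zero, Vbp_zero, bott_match τ (m + 1) hq0 a b]

/-- The paths of unitaries in `C*_max(X)^+`. -/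
noncomputable def UpathI (t : ℝ≥0) : CM (gX (XT τ)) :=
  toMax (gX (XT τ)) (UelI τ I ⌊t⌋₊ (t - ⌊t⌋₊))

noncomputable def VpathI (t : ℝ≥0) : CM (gX (XT τ)) :=
  toMax (gX (XT τ)) (VelI τ I ⌊t⌋₊ (t - ⌊t⌋₊))

/-- The Bott projections of the two paths form a matrix over the localization algebra. -/
theorem exists_pathI (r : ℝ) (hr : 2 ≤ r) :
    ∃ E : Matrix (Fin 2) (Fin 2) (locU (XT τ) r), ∀ (t : ℝ≥0) (a b : Fin 2),
      (E a b : ℝ≥0 →ᵇ CM (gX (XT τ))) t = bottE (UpathI τ I t) (VpathI τ I t) a b := by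
  have key : ∀ a b : Fin 2, ∃ f : locU (XT τ) r, ∀ t : ℝ≥0,
      (f : ℝ≥0 →ᵇ CM (gX (XT τ))) t = bottE (UpathI τ I t) (VpathI τ I t) a b := by
    intro a b
    refine exists_mem_locU (fun ε hε => ?_)
    obtain ⟨q, hq0, hq1⟩ := hq_approx (lt_min one_pos (show 0 < ε / 4 by positivity))
    obtain ⟨f, hf, hft⟩ := exists_mem_locAlg (bottFI_mem τ I q a b) (bottFI_match τ I hq0 a b) hr
    refine ⟨f, hf, fun t => ?_⟩
    have hU : ‖UpathI τ I t‖ ≤ 1 :=
      norm_le_one_of_mem_unitary (toMax_mem_unitary (UelI_unitary τ I _ _))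
    have hV : ‖VpathI τ I t‖ ≤ 1 :=
      norm_le_one_of_mem_unitary (toMax_mem_unitary (VelI_unitary τ I _ _))
    have h1 := hq1 (CM (gX (XT τ))) (UpathI τ I t) hU
    have h2 : f t = bott (UpathI τ I t) (VpathI τ I t) (hq q (UpathI τ I t)) a b := by
      rw [hft, bottFI_apply, map_bott, map_hq]
      rfl
    have h3 : ‖hneg (UpathI τ I t)‖ ≤ 1 := (norm_hneg_le _).trans hU
    have h4 : ‖hq q (UpathI τ I t)‖ ≤ 2 := by
      have e : hq q (UpathI τ I t) = hneg (UpathI τ I t) -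
          (hneg (UpathI τ I t) - hq q (UpathI τ I t)) := (sub_sub_cancel _ _).symm
      rw [e]
      refine (norm_sub_le _ _).trans ?_
      have := h1.trans (min_le_left _ _)
      linarith
    rw [h2]
    change ‖bott (UpathI τ I t) (VpathI τ I t) (hneg (UpathI τ I t)) a b -
      bott (UpathI τ I t) (VpathI τ I t) (hq q (UpathI τ I t)) a b‖ ≤ ε
    refine (norm_bott_sub_le hU hV h3 h4 a b).trans ?_
    have := h1.trans (min_le_right _ _)
    linarith
  choose E hE using key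
  exact ⟨Matrix.of fun a b => E a b, fun t a b => hE a b t⟩

/-- The matrix over the localization algebra given by the Bott projections. -/
noncomputable def EI (r : ℝ) (hr : 2 ≤ r) : Matrix (Fin 2) (Fin 2) (locU (XT τ) r) :=
  Classical.choose (exists_pathI τ I r hr)

theorem EI_spec (r : ℝ) (hr : 2 ≤ r) (t : ℝ≥0) (a b : Fin 2) :
    (EI τ I r hr a b : ℝ≥0 →ᵇ CM (gX (XT τ))) t = bottE (UpathI τ I t) (VpathI τ I t) a b :=
  Classical.choose_spec (exists_pathI τ I r hr) t a b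

theorem UVpathI_commute (t : ℝ≥0) : Commute (UpathI τ I t) (VpathI τ I t) :=
  (UelI_VelI_commute τ I _ _).map (toMax (gX (XT τ)))

theorem bottE_pathI_idem (t : ℝ≥0) :
    bottE (UpathI τ I t) (VpathI τ I t) * bottE (UpathI τ I t) (VpathI τ I t) =
    bottE (UpathI τ I t) (VpathI τ I t) :=
  bottE_idem (toMax_mem_unitary (UelI_unitary τ I _ _)) (toMax_mem_unitary (VelI_unitary τ I _ _))
    (UVpathI_commute τ I t)

theorem EI_idem (r : ℝ) (hr : 2 ≤ r) : EI τ I r hr * EI τ I r hr = EI τ I r hr := by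
  ext a b t
  have h1 := congrFun (congrFun (bottE_pathI_idem τ I t) a) b
  rw [Matrix.mul_apply, Fin.sum_univ_two] at h1 ⊢
  change (EI τ I r hr a 0 : ℝ≥0 →ᵇ CM (gX (XT τ))) t *
      (EI τ I r hr 0 b : ℝ≥0 →ᵇ CM (gX (XT τ))) t +
    (EI τ I r hr a 1 : ℝ≥0 →ᵇ CM (gX (XT τ))) t *
      (EI τ I r hr 1 b : ℝ≥0 →ᵇ CM (gX (XT τ))) t = _
  rw [EI_spec, EI_spec, EI_spec, EI_spec, EI_spec]
  exact h1

theorem EI_aug (r : ℝ) (hr : 2 ≤ r) : (EI τ I r hr).map (augL (XT τ) r) = e11 ℂ := by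
  ext a b
  have h1 : augL (XT τ) r (EI τ I r hr a b) =
      aug (gX (XT τ)) ((EI τ I r hr a b : ℝ≥0 →ᵇ CM (gX (XT τ))) 0) := rfl
  have h2 := congrFun (congrFun (map_bottE (aug (gX (XT τ))) (UpathI τ I 0) (VpathI τ I 0)) a) b
  have h3 : aug (gX (XT τ)) (UpathI τ I 0) = 1 := aug_of_sub_one (UbI_roe τ I _ _)
  rw [Matrix.map_apply, h1, EI_spec]
  rw [Matrix.map_apply, h3, bottE_one_left] at h2
  exact h2

theorem EI_incl {r r' : ℝ} (hr : 2 ≤ r) (h : r ≤ r') :
    (EI τ I r hr).map (inclLoc (X := XT τ) h) = EI τ I r' (hr.trans h) := by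
  ext a b t
  change (EI τ I r hr a b : ℝ≥0 →ᵇ CM (gX (XT τ))) t =
    (EI τ I r' (hr.trans h) a b : ℝ≥0 →ᵇ CM (gX (XT τ))) t
  rw [EI_spec, EI_spec]

end Tow

end Vale.Agent.P212.H268
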