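import Vale.Agent.P212.H268.A

/-! The vanishing of the classes at time zero, and the matrix coefficients. -/

namespace Vale.Agent.P212.H268

open Vale.Agent.P212 NNReal BoundedContinuousFunction Matrix
open scoped Matrix.Norms.L2Operator

variable (τ : Tower) (I : Set ℕ)

/-- The basis vectors over the components with index in `I`, over the base. -/
def SW : Set (base τ × ℕ) := {j | (j.1 : XT τ).n ∈ I}

theorem viaW_comp {m : ℕ} {π : Equiv.Perm (GI m)} (h : ∀ g, (π g).1 = g.1) (j : base τ × ℕ) :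
    (((π.viaEmbedding (jiW τ m)) j).1 : XT τ).n = (j.1 : XT τ).n := by
  by_cases hj : j ∈ Set.range (jiW τ m)
  · obtain ⟨g, rfl⟩ := hj
    rw [Equiv.Perm.viaEmbedding_apply]
    change (ji τ m (π g)).1.n = (ji τ m g).1.n
    rw [fst_ji, fst_ji]
    change (π g).1.1 = g.1.1
    rw [h]
  · rw [Equiv.Perm.viaEmbedding_apply_of_notMem _ _ _ hj]

theorem commute_pW_SW {m : ℕ} {π : Equiv.Perm (GI m)} (h : ∀ g, (π g).1 = g.1) :
    Commute (proj (SW τ I)) (pW τ m π) := by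
  refine permL_commute_proj fun j => ?_
  change (((π.viaEmbedding (jiW τ m)) j).1 : XT τ).n ∈ I ↔ (j.1 : XT τ).n ∈ I
  rw [viaW_comp τ h]

theorem cutW_roe (m : ℕ) (π : Equiv.Perm (GI m))
    (h : ∀ g, dist (ji τ m (π g)).1 (ji τ m g).1 ≤ 2) :
    IsRoe (gX (base τ)) (cut (SW τ I) (pW τ m π) - 1) := by
  rw [cut_sub_one]
  exact isRoe_proj_mul _ (pW_roe τ m π h)

/-- The permutation over the components in `I` as an element of `ℂ 1 + ℂ[W]`. -/
noncomputable def elWI (m : ℕ) (π : Equiv.Perm (GI m))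
    (h : ∀ g, dist (ji τ m (π g)).1 (ji τ m g).1 ≤ 2) : roeU (gX (base τ)) :=
  ⟨cut (SW τ I) (pW τ m π), 1, by simpa using cutW_roe τ I m π h⟩

theorem toMax_elWI (m : ℕ) (π : Equiv.Perm (GI m))
    (h : ∀ g, dist (ji τ m (π g)).1 (ji τ m g).1 ≤ 2) :
    toMax (gX (base τ)) (elWI τ I m π h) =
      1 + toMax (gX (base τ)) ⟨cut (SW τ I) (pW τ m π) - 1, (cutW_roe τ I m π h).mem_roeU⟩ := by
  rw [← map_one (toMax (gX (base τ))), ← map_add]
  congr 1
  apply Subtype.ext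
  exact (add_sub_cancel _ _).symm

theorem aug_elWI (m : ℕ) (π : Equiv.Perm (GI m))
    (h : ∀ g, dist (ji τ m (π g)).1 (ji τ m g).1 ≤ 2) :
    aug (gX (base τ)) (toMax (gX (base τ)) (elWI τ I m π h)) = 1 := by
  have h1 := aug_roe (gX (base τ)) _ (cutW_roe τ I m π h)
  rw [toMax_elWI, map_add, map_one, h1, add_zero]

theorem incl_cut (m : ℕ) (π : Equiv.Perm (GI m)) :
    inclL (base τ) ∘L (cut (SW τ I) (pW τ m π) - 1) ∘L
      ContinuousLinearMap.adjoint (inclL (base τ)) = cut (SI τ I) (pL τ m π) - 1 := by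
  have h1 := proj_comp_pushL2 (u := fun j : base τ × ℕ => ((j.1 : XT τ), j.2)) (by
    rintro ⟨a, b⟩ ⟨c, d⟩ h
    simpa [Subtype.ext_iff] using h) (SI τ I)
  have h2 : proj (SI τ I) ∘L inclL (base τ) = inclL (base τ) ∘L proj (SW τ I) := h1
  rw [cut_sub_one, cut_sub_one, ← incl_pW τ m π]
  calc inclL (base τ) ∘L (proj (SW τ I) * (pW τ m π - 1)) ∘L
        ContinuousLinearMap.adjoint (inclL (base τ))
      = (inclL (base τ) ∘L proj (SW τ I)) ∘L (pW τ m π - 1) ∘L
        ContinuousLinearMap.adjoint (inclL (base τ)) := rfl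
    _ = _ := by
      rw [← h2]
      rfl

/-- The image of the permutation operator under the inclusion. -/
theorem inclC_elWI (m : ℕ) (π : Equiv.Perm (GI m))
    (h : ∀ g, dist (ji τ m (π g)).1 (ji τ m g).1 ≤ 2) (T : roeU (gX (XT τ)))
    (hT : (T : BX (XT τ)) = cut (SI τ I) (pL τ m π)) :
    inclC (base τ) (toMax (gX (base τ)) (elWI τ I m π h)) = toMax (gX (XT τ)) T := by
  rw [toMax_elWI, map_add, map_one]
  have h1 := inclC_roe τ _ (cutW_roe τ I m π h)
  have h2 : T = 1 + ⟨inclL (base τ) ∘L (cut (SW τ I) (pW τ m π) - 1) ∘L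
      ContinuousLinearMap.adjoint (inclL (base τ)),
        (isRoe_incl (base τ) (cutW_roe τ I m π h)).mem_roeU⟩ := by
    apply Subtype.ext
    change (T : BX (XT τ)) = 1 + inclL (base τ) ∘L (cut (SW τ I) (pW τ m π) - 1) ∘L
      ContinuousLinearMap.adjoint (inclL (base τ))
    rw [incl_cut, hT, add_sub_cancel]
  rw [h2, map_add, map_one]
  exact congrArg (fun b => 1 + b) h1

theorem elWI_unitary (m : ℕ) (π : Equiv.Perm (GI m)) (hπ : ∀ g, (π g).1 = g.1)
    (h : ∀ g, dist (ji τ m (π g)).1 (ji τ m g).1 ≤ 2) :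
    elWI τ I m π h ∈ unitary (roeU (gX (base τ))) := by
  have h1 := cut_unitary (commute_pW_SW τ I hπ)
    ⟨show star (pW τ m π) * pW τ m π = 1 by rw [star_pW, ← pW_mul, inv_mul_cancel, pW_one],
      show pW τ m π * star (pW τ m π) = 1 by rw [star_pW, ← pW_mul, mul_inv_cancel, pW_one]⟩
  rw [Unitary.mem_iff]
  exact ⟨Subtype.ext h1.1, Subtype.ext h1.2⟩

theorem elWI_commute (m : ℕ) {π π' : Equiv.Perm (GI m)} (hc : Commute π π')
    (hπ : ∀ g, (π g).1 = g.1) (hπ' : ∀ g, (π' g).1 = g.1)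
    (h : ∀ g, dist (ji τ m (π g)).1 (ji τ m g).1 ≤ 2)
    (h' : ∀ g, dist (ji τ m (π' g)).1 (ji τ m g).1 ≤ 2) :
    Commute (elWI τ I m π h) (elWI τ I m π' h') := by
  apply Subtype.ext
  refine (cut_commute (commute_pW_SW τ I hπ) (commute_pW_SW τ I hπ') ?_).eq
  change pW τ m π * pW τ m π' = pW τ m π' * pW τ m π
  rw [← pW_mul, ← pW_mul, hc.eq]

theorem UpathI_zero : UpathI τ I 0 = toMax (gX (XT τ)) (UelI τ I 0 0) := by
  unfold UpathI
  simp

theorem VpathI_zero : VpathI τ I 0 = toMax (gX (XT τ)) (VelI τ I 0 0) := by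
  unfold VpathI
  simp

theorem inclC_uWI : inclC (base τ) (toMax (gX (base τ)) (elWI τ I 1 (gsX 0) (dist_sX τ 0))) =
    UpathI τ I 0 := by
  rw [UpathI_zero]
  refine inclC_elWI τ I 1 (gsX 0) (dist_sX τ 0) _ ?_
  change cut _ (Ubp τ 0 0) = _
  rw [Ubp_zero]

theorem inclC_vWI : inclC (base τ) (toMax (gX (base τ)) (elWI τ I 1 (gsY 0) (dist_sY τ 0))) =
    VpathI τ I 0 := by
  rw [VpathI_zero]
  refine inclC_elWI τ I 1 (gsY 0) (dist_sY τ 0) _ ?_
  change cut _ (Vbp τ 0 0) = _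
  rw [Vbp_zero]

/-- The class of the Bott projection at time zero vanishes in `K_0(C*_max(X))`. -/
theorem cls_bottI_zero :
    K0.cls (bottE (UpathI τ I 0) (VpathI τ I 0)) (bottE_pathI_idem τ I 0) =
    K0.cls (e11 (CM (gX (XT τ)))) (e11_idem _) :=
  cls_bott_abstract (inclC (base τ)) (aug (gX (base τ))) _ _
    (Unitary.map_mem (toMax (gX (base τ))) (elWI_unitary τ I 1 (gsX 0) (fun _ => rfl)
      (dist_sX τ 0)))
    (Unitary.map_mem (toMax (gX (base τ))) (elWI_unitary τ I 1 (gsY 0) (fun _ => rfl)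
      (dist_sY τ 0)))
    ((elWI_commute τ I 1 (commute_sX_sY 0) (fun _ => rfl) (fun _ => rfl) (dist_sX τ 0)
      (dist_sY τ 0)).map (toMax (gX (base τ))))
    (aug_elWI τ I 1 (gsX 0) (dist_sX τ 0)) (fun x hx => K0incl_eq_zero τ x hx)
    _ _ (inclC_uWI τ I) (inclC_vWI τ I) (bottE_pathI_idem τ I 0)

/-! ### The matrix coefficients -/

theorem opC_bottI (m : ℕ) (a b : Fin 2) :
    opC (XT τ) (bottE (UpathI τ I m) (VpathI τ I m) a b) =
      proj (SI τ I) * opC (XT τ) (bottE (Upath τ m) (Vpath τ m) a b) +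
        e11 ℂ a b • (1 - proj (SI τ I)) := by
  have h1 := congrFun (congrFun (map_bottE (opC (XT τ)) (UpathI τ I m) (VpathI τ I m)) a) b
  have h2 := congrFun (congrFun (map_bottE (opC (XT τ)) (Upath τ m) (Vpath τ m)) a) b
  rw [Matrix.map_apply] at h1 h2
  rw [h1, h2]
  have hU : opC (XT τ) (UpathI τ I m) = cut (SI τ I) (Ubp τ m 0) := by
    unfold UpathI
    rw [opC_toMax, Nat.floor_natCast]
    change cut _ (Ubp τ m _) = _
    rw [NNReal.coe_natCast, sub_self]
  have hV : opC (XT τ) (VpathI τ I m) = cut (SI τ I) (Vbp τ m 0) := by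
    unfold VpathI
    rw [opC_toMax, Nat.floor_natCast]
    change cut _ (Vbp τ m _) = _
    rw [NNReal.coe_natCast, sub_self]
  have hU' : opC (XT τ) (Upath τ m) = Ubp τ m 0 := by
    unfold Upath
    rw [opC_toMax, Nat.floor_natCast]
    change Ubp τ m _ = _
    rw [NNReal.coe_natCast, sub_self]
  have hV' : opC (XT τ) (Vpath τ m) = Vbp τ m 0 := by
    unfold Vpath
    rw [opC_toMax, Nat.floor_natCast]
    change Vbp τ m _ = _
    rw [NNReal.coe_natCast, sub_self]
  rw [hU, hV, hU', hV']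
  exact bottE_cut (commute_Ubp_SI τ I m 0) (commute_Vbp_SI τ I m 0) a b

open Classical in
/-- The matrix coefficients over the components in `I` and elsewhere. -/
theorem ent_bottI (m : ℕ) (a b : Fin 2) (j k : XT τ × ℕ) :
    ent (opC (XT τ) (bottE (UpathI τ I m) (VpathI τ I m) a b)) j k =
      if j.1.n ∈ I then ent (opC (XT τ) (bottE (Upath τ m) (Vpath τ m) a b)) j k
      else if j = k then e11 ℂ a b else 0 := by
  rw [opC_bottI, ent_proj_add]
  by_cases h : j.1.n ∈ I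
  · rw [if_pos h, if_pos (show j ∈ SI τ I from h)]
  · rw [if_neg h, if_neg (show ¬ j ∈ SI τ I from h)]
    by_cases hjk : j = k
    · rw [if_pos hjk, if_pos hjk]
    · rw [if_neg hjk, if_neg hjk]

end Vale.Agent.P212.H268
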