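import Vale.Agent.P212.H268.B

/-! The rank of the twisted compressions, for a sum of copies of the Bott projection and a
scalar projection. -/

namespace Vale.Agent.P212.H268

open Vale.Agent.P212 NNReal Matrix
open scoped Matrix.Norms.L2Operator Kronecker

section K

variable {κ' : Type} [Fintype κ'] [DecidableEq κ']

/-- The index set of `M E ⊕ g`. -/
abbrev KI (M : ℕ) (κ' : Type) : Type := (Fin M × Fin 2) ⊕ κ'

instance instDecidableEqKI (M : ℕ) : DecidableEq (KI M κ') := inferInstance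

instance instFintypeKI (M : ℕ) : Fintype (KI M κ') := inferInstance

/-- The scalar matrix `M e11 ⊕ g`. -/
def fK (M : ℕ) (g : Matrix κ' κ' ℂ) : Matrix (KI M κ') (KI M κ') ℂ :=
  fromBlocks (copies M (e11 ℂ)) 0 0 g

/-- The copy to which an index belongs. -/
def cpy {M : ℕ} : KI M κ' → Option (Fin M × Fin 2) := Sum.elim some (fun _ => none)

omit [Fintype κ'] [DecidableEq κ'] in
theorem cpy_some {M : ℕ} {x : KI M κ'} {p : Fin M × Fin 2} (h : cpy x = some p) :
    x = Sum.inl p := by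
  rcases x with x | x <;> simp [cpy] at h ⊢
  exact h

omit [Fintype κ'] [DecidableEq κ'] in
theorem cpy_none {M : ℕ} {x : KI M κ'} (h : cpy x = none) : ∃ y, x = Sum.inr y := by
  rcases x with x | x
  · simp [cpy] at h
  · exact ⟨x, rfl⟩

omit [DecidableEq κ'] in
theorem fK_idem {M : ℕ} {g : Matrix κ' κ' ℂ} (hg : g * g = g) : fK M g * fK M g = fK M g := by
  rw [fK, fromBlocks_multiply]
  simp [copies_idem M (e11_idem ℂ), hg]

omit [Fintype κ'] [DecidableEq κ'] in
theorem fK_star {M : ℕ} {g : Matrix κ' κ' ℂ} (hg : gᴴ = g) : (fK M g)ᴴ = fK M g := by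
  have h1 : (copies M (e11 ℂ))ᴴ = copies M (e11 ℂ) := by
    ext ⟨i, a⟩ ⟨j, b⟩
    rw [conjTranspose_apply]
    simp only [copies]
    by_cases h : i = j
    · rw [if_pos h, if_pos h.symm]
      fin_cases a <;> fin_cases b <;> simp [e11]
    · rw [if_neg h, if_neg (Ne.symm h), star_zero]
  rw [fK, fromBlocks_conjTranspose, h1, hg, conjTranspose_zero, conjTranspose_zero]

theorem fK_rank {M : ℕ} {g : Matrix κ' κ' ℂ} (hg : g * g = g) :
    (fK M g).rank = M + g.rank := by
  have h1 := rank_eq_trace (fK_idem (M := M) hg)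
  have h2 := rank_eq_trace hg
  have h3 : (copies M (e11 ℂ)).trace = M := by
    rw [trace, Fintype.sum_prod_type]
    simp [copies, e11, Fin.sum_univ_two]
  rw [fK, bei_trace_blocks, h3, ← h2] at h1
  exact_mod_cast h1

omit [Fintype κ'] [DecidableEq κ'] in
theorem fK_ne {M : ℕ} {g : Matrix κ' κ' ℂ} {x y : KI M κ'}
    (h : (cpy x).map Prod.fst ≠ (cpy y).map Prod.fst) : fK M g x y = 0 := by
  rcases x with x | x <;> rcases y with y | y <;>
    simp only [fK, fromBlocks_apply₁₁, fromBlocks_apply₁₂, fromBlocks_apply₂₁,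
      fromBlocks_apply₂₂, Matrix.zero_apply]
  · rw [copies, if_neg]
    intro h'
    apply h
    simp [cpy, h']
  · exact absurd rfl h

variable {τ : Tower} [DecidableEq (XT τ)]

/-- A finite matrix which is a sum of `M` copies of the Bott projection of the component `n`
and of scalar projections. -/
structure IsEhat (τ : Tower) [DecidableEq (XT τ)] (n m : ℕ) (F : Finset (XT τ × ℕ)) (M : ℕ)
    (g : Matrix κ' κ' ℂ) (E' : Matrix (F × KI M κ') (F × KI M κ') ℂ) : Prop where
  on : ∀ (hn : 3 ≤ n) (i j : F) (p q : Grid (sd n m)) (x y : Fin M × Fin 2),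
    (i : XT τ × ℕ) = ji τ m ⟨⟨n, hn⟩, p⟩ → (j : XT τ × ℕ) = ji τ m ⟨⟨n, hn⟩, q⟩ →
    E' (i, Sum.inl x) (j, Sum.inl y) = if x.1 = y.1 then gridE (sd n m) (p, x.2) (q, y.2) else 0
  off : ∀ a b : F × KI M κ', (¬ ∃ (n' : {n : ℕ // 3 ≤ n}) (p q : Grid (sd n'.1 m)),
    (a.1 : XT τ × ℕ) = ji τ m ⟨n', p⟩ ∧ (b.1 : XT τ × ℕ) = ji τ m ⟨n', q⟩) →
    E' a b = if a.1 = b.1 then fK M g a.2 b.2 else 0
  none : ∀ a b : F × KI M κ', cpy a.2 = none ∨ cpy b.2 = none →
    E' a b = if a.1 = b.1 then fK M g a.2 b.2 else 0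

/-- The rank of the twisted compression to a set of basis vectors containing the
grid of the component `n`. -/
theorem rk_E (m n j : ℕ) (hn : 16 ≤ n) (sgn : ℤ) {M : ℕ} {g : Matrix κ' κ' ℂ}
    (hgi : g * g = g) (hgs : gᴴ = g)
    (F : Finset (XT τ × ℕ)) (B : Finset (XT τ)) (hB : ∀ x ∈ B, x.n = n)
    (hF : ∀ i ∈ F, (pos i).1.support ⊆ B)
    (hg : ∀ g : Grid (sd n m), ji τ m ⟨⟨n, by omega⟩, g⟩ ∈ F)
    (hc : ∀ i ∈ F, CocAt (j • c0 n) (pos i))
    (h1 : NearId (tw (gridQ τ B j n m) (gridE (sd n m))) (1 / 16))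
    (h2 : (rk (tw (gridQ τ B j n m) (gridE (sd n m))) : ℤ) = (sd n m : ℤ) ^ 2 + sgn * j)
    {E' : Matrix (F × KI M κ') (F × KI M κ') ℂ} (hE : IsEhat τ n m F M g E')
    (P : F × KI M κ' → Prop) [DecidablePred P] (P' : F → Prop) [DecidablePred P']
    (hP : ∀ a, P a ↔ P' a.1)
    (hP' : ∀ (g : Grid (sd n m)), P' ⟨_, hg g⟩) :
    NearId (tw (fun a : {a : F × KI M κ' // P a} => Qb B (j • c0 n) (pos (a.1.1 : XT τ × ℕ)))
      (E'.submatrix Subtype.val Subtype.val)) (1 / 8) ∧
    (rk (tw (fun a : {a : F × KI M κ' // P a} => Qb B (j • c0 n) (pos (a.1.1 : XT τ × ℕ)))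
      (E'.submatrix Subtype.val Subtype.val)) : ℤ) =
      M * (Fintype.card {i : F // P' i} + sgn * j) +
        (g.rank : ℤ) * Fintype.card {i : F // P' i} := by
  classical
  have hn3 : 3 ≤ n := by omega
  -- the grid vectors
  obtain ⟨gi, hgi'⟩ : ∃ gi : Grid (sd n m) → F, ∀ g, (gi g : XT τ × ℕ) = ji τ m ⟨⟨n, hn3⟩, g⟩ :=
    ⟨fun g => ⟨ji τ m ⟨⟨n, hn3⟩, g⟩, hg g⟩, fun g => rfl⟩
  have hgiP : ∀ g, P' (gi g) := by
    intro g
    have h3 := hP' g
    have h4 : gi g = ⟨ji τ m ⟨⟨n, hn3⟩, g⟩, hg g⟩ := Subtype.ext (hgi' g)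
    rw [h4]
    exact h3
  have hgiinj : Function.Injective gi := by
    intro g g' h
    have h3 : ji τ m ⟨⟨n, hn3⟩, g⟩ = ji τ m ⟨⟨n, hn3⟩, g'⟩ := by rw [← hgi', ← hgi', h]
    have h4 := (ji τ m).injective h3
    have h5 := (Sigma.mk.inj_iff.1 h4).2
    exact eq_of_heq h5
  have hgiQ : ∀ g, Qb B (j • c0 n) (pos (gi g : XT τ × ℕ)) =
      Qb B (j • c0 n) (gpt τ n m g) := by
    intro g
    rw [hgi', pos_ji]
  have hQb : ∀ i : F, (Qb B (j • c0 n) (pos (i : XT τ × ℕ)))ᴴ = Qb B (j • c0 n) (pos i) ∧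
      Qb B (j • c0 n) (pos (i : XT τ × ℕ)) * Qb B (j • c0 n) (pos i) =
        Qb B (j • c0 n) (pos i) := fun i => Qb_bun (hF i i.2) (hc i i.2)
  have hQr : ∀ i : F, (Qb B (j • c0 n) (pos (i : XT τ × ℕ))).rank = 1 := fun i =>
    Qb_rank (hF i i.2) (hc i i.2)
  -- the entries
  have hoff : ∀ a b : F × KI M κ', ¬ ((∃ g, gi g = a.1) ∧ ∃ g, gi g = b.1) →
      E' a b = if a.1 = b.1 then fK M g a.2 b.2 else 0 := by
    intro a b hab
    apply hE.off
    rintro ⟨n', p, q, e1, e2⟩
    apply hab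
    obtain ⟨p', hp'⟩ := bei_grid_comp τ hn3 hB (hF _ a.1.2) e1
    obtain ⟨q', hq'⟩ := bei_grid_comp τ hn3 hB (hF _ b.1.2) e2
    refine ⟨⟨p', Subtype.ext ?_⟩, ⟨q', Subtype.ext ?_⟩⟩
    · rw [hgi', e1, hp']
    · rw [hgi', e2, hq']
  have hon : ∀ (g g' : Grid (sd n m)) (p q : Fin M × Fin 2),
      E' (gi g, Sum.inl p) (gi g', Sum.inl q) =
      if p.1 = q.1 then gridE (sd n m) (g, p.2) (g', q.2) else 0 := by
    intro g g' p q
    exact hE.on hn3 _ _ g g' p q (hgi' g) (hgi' g')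
  have hnone := hE.none
  -- the partition
  obtain ⟨π, hπ1, hπ2⟩ : ∃ π : {a : F × KI M κ' // P a} → Option (Fin M) ⊕ Unit,
      (∀ a, (∃ g, gi g = a.1.1) → π a = Sum.inl ((cpy a.1.2).map Prod.fst)) ∧
      (∀ a, (¬ ∃ g, gi g = a.1.1) → π a = Sum.inr ()) :=
    exists_pi_cases (fun a : {a : F × KI M κ' // P a} => ∃ g, gi g = a.1.1)
      (fun a => Sum.inl ((cpy a.1.2).map Prod.fst)) (fun _ => Sum.inr ())
  have hzero : ∀ a b : {a : F × KI M κ' // P a}, π a ≠ π b →
      (E'.submatrix (Subtype.val : {a : F × KI M κ' // P a} → _)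
        Subtype.val) a b = 0 := by
    intro a b hab
    rw [submatrix_apply]
    by_cases ha : ∃ g, gi g = a.1.1
    · by_cases hb : ∃ g, gi g = b.1.1
      · rw [hπ1 a ha, hπ1 b hb] at hab
        have hab' : (cpy a.1.2).map Prod.fst ≠ (cpy b.1.2).map Prod.fst :=
          fun h => hab (by rw [h])
        obtain ⟨⟨i, x⟩, hx⟩ := a
        obtain ⟨⟨i', y⟩, hy⟩ := b
        simp only at ha hb hab' ⊢
        by_cases hx0 : cpy x = none
        · rw [hnone _ _ (Or.inl hx0)]
          simp only [fK_ne hab', ite_self]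
        by_cases hy0 : cpy y = none
        · rw [hnone _ _ (Or.inr hy0)]
          simp only [fK_ne hab', ite_self]
        obtain ⟨p, hp⟩ := Option.ne_none_iff_exists'.1 hx0
        obtain ⟨q, hq⟩ := Option.ne_none_iff_exists'.1 hy0
        rw [hp, hq] at hab'
        obtain rfl := cpy_some hp
        obtain rfl := cpy_some hq
        obtain ⟨g, rfl⟩ := ha
        obtain ⟨g', rfl⟩ := hb
        rw [hon, if_neg]
        intro h
        apply hab'
        simp only [Option.map_some, h]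
      · rw [hoff _ _ (fun h => hb h.2), if_neg]
        intro h
        rw [h] at ha
        exact hb ha
    · rw [hoff _ _ (fun h => ha h.1), if_neg]
      intro h
      by_cases hb : ∃ g, gi g = b.1.1
      · rw [← h] at hb
        exact ha hb
      · rw [hπ2 a ha, hπ2 b hb] at hab
        exact hab rfl
  -- the copies
  have hA : ∀ n1 : Fin M, NearId (tw (fun a : {a // π a = Sum.inl (some n1)} =>
      Qb B (j • c0 n) (pos (a.1.1.1 : XT τ × ℕ)))
      ((E'.submatrix (Subtype.val : {a : F × KI M κ' // P a} → _)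
        Subtype.val).submatrix Subtype.val Subtype.val)) (1 / 8) ∧
      rk (tw (fun a : {a // π a = Sum.inl (some n1)} =>
      Qb B (j • c0 n) (pos (a.1.1.1 : XT τ × ℕ)))
      ((E'.submatrix (Subtype.val : {a : F × KI M κ' // P a} → _)
        Subtype.val).submatrix Subtype.val Subtype.val)) =
        rk (tw (gridQ τ B j n m) (gridE (sd n m))) := by
    intro n1
    let f : Grid (sd n m) × Fin 2 → {a // π a = Sum.inl (some n1)} := fun p =>
      ⟨⟨(gi p.1, Sum.inl (n1, p.2)), (hP _).2 (hgiP _)⟩,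
        hπ1 _ ⟨p.1, rfl⟩⟩
    have hf : Function.Bijective f := by
      constructor
      · rintro ⟨g, s⟩ ⟨g', s'⟩ h
        have h3 := Prod.mk.inj (congrArg (fun z : {a // π a = Sum.inl (some n1)} => z.1.1) h)
        have h4 := (Prod.mk.inj (Sum.inl.inj h3.2)).2
        exact Prod.ext (hgiinj h3.1) h4
      · rintro ⟨⟨⟨i, x⟩, hx⟩, ha⟩
        by_cases hi : ∃ g, gi g = i
        · rw [hπ1 _ hi] at ha
          simp only [Sum.inl.injEq] at ha
          obtain ⟨⟨n1', s⟩, hp, hp'⟩ := Option.map_eq_some_iff.1 ha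
          obtain rfl := cpy_some hp
          simp only at hp'
          subst hp'
          obtain ⟨g, rfl⟩ := hi
          exact ⟨(g, s), rfl⟩
        · rw [hπ2 _ hi] at ha
          exact absurd ha (by simp)
    refine bei_tw_equiv (Equiv.ofBijective f hf) _ _ (gridQ τ B j n m) (gridE (sd n m)) ?_ ?_
      (h1.mono (by norm_num))
    · intro b
      exact hgiQ b.1
    · intro b c
      change E' (gi b.1, _) (gi c.1, _) = _
      rw [hon, if_pos rfl]
  -- the grid, outside the copies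
  have hC : NearId (tw (fun a : {a // π a = Sum.inl none} =>
      Qb B (j • c0 n) (pos (a.1.1.1 : XT τ × ℕ)))
      ((E'.submatrix (Subtype.val : {a : F × KI M κ' // P a} → _)
        Subtype.val).submatrix Subtype.val Subtype.val)) (1 / 8) ∧
      rk (tw (fun a : {a // π a = Sum.inl none} =>
      Qb B (j • c0 n) (pos (a.1.1.1 : XT τ × ℕ)))
      ((E'.submatrix (Subtype.val : {a : F × KI M κ' // P a} → _)
        Subtype.val).submatrix Subtype.val Subtype.val)) =
        Fintype.card (Grid (sd n m)) * g.rank := by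
    let f : Grid (sd n m) × κ' → {a // π a = Sum.inl none} := fun p =>
      ⟨⟨(gi p.1, Sum.inr p.2), (hP _).2 (hgiP _)⟩, by
        rw [hπ1 _ ⟨p.1, rfl⟩]
        rfl⟩
    have hf : Function.Bijective f := by
      constructor
      · rintro ⟨g, s⟩ ⟨g', s'⟩ h
        simp only [f, Subtype.mk.injEq, Prod.mk.injEq, Sum.inr.injEq] at h
        rw [hgiinj h.1, h.2]
      · rintro ⟨⟨⟨i, x⟩, hx⟩, ha⟩
        by_cases hi : ∃ g, gi g = i
        · rw [hπ1 _ hi] at ha
          simp only [Sum.inl.injEq, Option.map_eq_none_iff] at ha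
          obtain ⟨y, rfl⟩ := cpy_none ha
          obtain ⟨g, rfl⟩ := hi
          exact ⟨(g, y), rfl⟩
        · rw [hπ2 _ hi] at ha
          exact absurd ha (by simp)
    have h3 := rk_tw_scalar (α := Grid (sd n m)) g hgi hgs
      (fun g => Qb B (j • c0 n) (pos (gi g : XT τ × ℕ))) (fun g => hQb (gi g))
      (fun g => hQr (gi g)) (1 / 8) (by norm_num)
    have h4 := bei_tw_equiv (Equiv.ofBijective f hf)
      (fun a : {a // π a = Sum.inl none} => Qb B (j • c0 n) (pos (a.1.1.1 : XT τ × ℕ)))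
      ((E'.submatrix (Subtype.val : {a : F × KI M κ' // P a} → _)
        Subtype.val).submatrix Subtype.val Subtype.val)
      (fun a : Grid (sd n m) × κ' => Qb B (j • c0 n) (pos (gi a.1 : XT τ × ℕ)))
      (fun a b => if a.1 = b.1 then g a.2 b.2 else 0)
      (fun b => rfl) (fun b c => by
        change E' (gi b.1, _) (gi c.1, _) = _
        rw [hnone _ _ (Or.inl rfl)]
        by_cases h : b.1 = c.1
        · rw [if_pos h, if_pos (by rw [h])]
          rfl
        · rw [if_neg h, if_neg (fun h' => h (hgiinj h'))]) h3.1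
    exact ⟨h4.1, h4.2.trans h3.2⟩
  -- the points off the grid
  have hD : NearId (tw (fun a : {a // π a = Sum.inr ()} =>
      Qb B (j • c0 n) (pos (a.1.1.1 : XT τ × ℕ)))
      ((E'.submatrix (Subtype.val : {a : F × KI M κ' // P a} → _)
        Subtype.val).submatrix Subtype.val Subtype.val)) (1 / 8) ∧
      rk (tw (fun a : {a // π a = Sum.inr ()} =>
      Qb B (j • c0 n) (pos (a.1.1.1 : XT τ × ℕ)))
      ((E'.submatrix (Subtype.val : {a : F × KI M κ' // P a} → _)
        Subtype.val).submatrix Subtype.val Subtype.val)) =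
        Fintype.card {i : {i : F // P' i} // ¬ ∃ g, gi g = i.1} * (M + g.rank) := by
    let f : {i : {i : F // P' i} // ¬ ∃ g, gi g = i.1} × KI M κ' →
        {a // π a = Sum.inr ()} := fun p =>
      ⟨⟨(p.1.1.1, p.2), (hP _).2 p.1.1.2⟩, hπ2 _ p.1.2⟩
    have hf : Function.Bijective f := by
      constructor
      · rintro ⟨⟨⟨g, _⟩, _⟩, s⟩ ⟨⟨⟨g', _⟩, _⟩, s'⟩ h
        simp only [f, Subtype.mk.injEq, Prod.mk.injEq] at h
        obtain ⟨rfl, rfl⟩ := h
        rfl
      · rintro ⟨⟨⟨i, x⟩, hx⟩, ha⟩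
        by_cases hi : ∃ g, gi g = i
        · rw [hπ1 _ hi] at ha
          exact absurd ha (by simp)
        · exact ⟨(⟨⟨i, (hP _).1 hx⟩, hi⟩, x), rfl⟩
    have h3 := rk_tw_scalar (α := {i : {i : F // P' i} // ¬ ∃ g, gi g = i.1}) (fK M g)
      (fK_idem hgi) (fK_star hgs)
      (fun i => Qb B (j • c0 n) (pos (i.1.1 : XT τ × ℕ))) (fun i => hQb i.1.1)
      (fun i => hQr i.1.1) (1 / 8) (by norm_num)
    rw [fK_rank hgi] at h3
    have h4 := bei_tw_equiv (Equiv.ofBijective f hf)
      (fun a : {a // π a = Sum.inr ()} => Qb B (j • c0 n) (pos (a.1.1.1 : XT τ × ℕ)))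
      ((E'.submatrix (Subtype.val : {a : F × KI M κ' // P a} → _)
        Subtype.val).submatrix Subtype.val Subtype.val)
      (fun a : {i : {i : F // P' i} // ¬ ∃ g, gi g = i.1} × KI M κ' =>
        Qb B (j • c0 n) (pos (a.1.1.1 : XT τ × ℕ)))
      (fun a b => if a.1 = b.1 then fK M g a.2 b.2 else 0)
      (fun b => rfl) (fun b c => by
        change E' (b.1.1.1, b.2) (c.1.1.1, c.2) = _
        rw [hoff _ _ (fun h => b.1.2 h.1)]
        by_cases h : b.1 = c.1
        · rw [if_pos h, if_pos (by rw [h])]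
        · rw [if_neg h, if_neg (fun h' => h (Subtype.ext (Subtype.ext h')))]) h3.1
    exact ⟨h4.1, h4.2.trans h3.2⟩
  -- the number of points
  have hcard : Fintype.card {i : F // P' i} = Fintype.card (Grid (sd n m)) +
      Fintype.card {i : {i : F // P' i} // ¬ ∃ g, gi g = i.1} := by
    rw [← Fintype.card_sum]
    symm
    refine Fintype.card_of_bijective (f := Sum.elim (fun g => (⟨gi g, hgiP g⟩ : {i : F // P' i}))
      Subtype.val) ⟨?_, ?_⟩
    · rintro (g | i) (g' | i') h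
      · simp only [Sum.elim_inl, Subtype.mk.injEq] at h
        rw [hgiinj h]
      · exfalso
        simp only [Sum.elim_inl, Sum.elim_inr] at h
        exact i'.2 ⟨g, by rw [← h]⟩
      · exfalso
        simp only [Sum.elim_inl, Sum.elim_inr] at h
        exact i.2 ⟨g', by rw [h]⟩
      · simp only [Sum.elim_inr] at h
        rw [Subtype.ext h]
    · intro i
      by_cases hi : ∃ g, gi g = i.1
      · obtain ⟨g, hg'⟩ := hi
        exact ⟨Sum.inl g, Subtype.ext hg'⟩
      · exact ⟨Sum.inr ⟨i, hi⟩, rfl⟩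
  have hcg : (Fintype.card (Grid (sd n m)) : ℤ) = (sd n m : ℤ) ^ 2 := by
    rw [Fintype.card_prod, ZMod.card, Nat.cast_mul, sq]
  have hmain := bei_tw_partition π
    (fun a : {a : F × KI M κ' // P a} => Qb B (j • c0 n) (pos (a.1.1 : XT τ × ℕ)))
    (E'.submatrix Subtype.val Subtype.val) hzero
    (ε := 1 / 8) (by norm_num) (by norm_num) (by
      rintro ((_ | n1) | _)
      · exact hC.1
      · exact (hA n1).1
      · exact hD.1)
  refine ⟨hmain.1, ?_⟩
  have hv : ∀ i, rk (tw (fun a : {a // π a = i} =>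
      Qb B (j • c0 n) (pos (a.1.1.1 : XT τ × ℕ)))
      ((E'.submatrix (Subtype.val : {a : F × KI M κ' // P a} → _)
        Subtype.val).submatrix Subtype.val Subtype.val)) =
      Sum.elim (fun o : Option (Fin M) => o.elim (Fintype.card (Grid (sd n m)) * g.rank)
        (fun _ => rk (tw (gridQ τ B j n m) (gridE (sd n m)))))
        (fun _ => Fintype.card {i : {i : F // P' i} // ¬ ∃ g, gi g = i.1} * (M + g.rank)) i := by
    rintro ((_ | n1) | _)
    · exact hC.2
    · exact (hA n1).2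
    · exact hD.2
  have hfin := hmain.2.trans (Finset.sum_congr rfl (fun i _ => hv i))
  rw [hfin, Fintype.sum_sum_type]
  simp only [Sum.elim_inl, Sum.elim_inr, Fintype.sum_option, Option.elim_none, Option.elim_some,
    Finset.sum_const, Finset.card_univ, Fintype.card_fin, Fintype.card_unit, smul_eq_mul,
    one_mul, hcard, Nat.cast_add, Nat.cast_mul, hcg, h2]
  ring

end K

end Vale.Agent.P212.H268
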