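import Vale.Agent.P212.H268.C

/-! The analysis of the finite matrices, for a general index set. -/

namespace Vale.Agent.P212.H268

open Vale.Agent.P212 NNReal Matrix
open scoped Matrix.Norms.L2Operator Kronecker

section Core

variable {τ : Tower} [DecidableEq (XT τ)] {κ : Type} [Fintype κ] [DecidableEq κ]

omit [Fintype κ] [DecidableEq κ] in
theorem scM_apply (F : Finset (XT τ × ℕ)) (f : Matrix κ κ ℂ)
    (a b : F × κ) : scM F f a b = if a.1 = b.1 then f a.2 b.2 else 0 := by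
  rw [scM, kroneckerMap_apply, one_apply, ite_mul, one_mul, zero_mul]

omit [DecidableEq κ] in
theorem scM_idem (F : Finset (XT τ × ℕ)) {f : Matrix κ κ ℂ} (hf : f * f = f) :
    scM F f * scM F f = scM F f := by
  rw [scM, ← mul_kronecker_mul, Matrix.one_mul, hf]

theorem norm_scM_le_one (F : Finset (XT τ × ℕ)) {f : Matrix κ κ ℂ} (hf : f * f = f)
    (hs : fᴴ = f) : ‖scM F f‖ ≤ 1 := by
  refine norm_le_one_of_proj ?_ (scM_idem F hf)
  rw [scM, conjTranspose_kronecker, hs, conjTranspose_one]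

theorem scM_dg (F : Finset (XT τ × ℕ)) (f : Matrix κ κ ℂ) (g : RPt (XT τ) → ℂ) :
    scM F f * dg F g = dg F g * scM F f := by
  ext a b
  rw [dg, mul_diagonal, diagonal_mul, scM, kroneckerMap_apply, one_apply]
  split_ifs with h
  · rw [h, one_mul, mul_comm]
  · simp

/-- The two matrices agree over the overlap. -/
theorem E_mul_kap (F : Finset (XT τ × ℕ)) (BI : Finset (XT τ)) (f : Matrix κ κ ℂ)
    (E' : Matrix (F × κ) (F × κ) ℂ)
    (hoff : ∀ a b : F × κ, (¬ ∃ x ∈ (pos (b.1 : XT τ × ℕ)).1.support, x.l = 0) →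
      E' a b = scM F f a b)
    (hd : ∀ a ∈ F, mass BI (pos a) < 1 → ¬ ∃ x ∈ (pos a).1.support, x.l = 0) :
    E' * dgr (fun a : F × κ => mass BI (pos (a.1 : XT τ × ℕ))) kap0 =
      scM F f * dgr (fun a : F × κ => mass BI (pos (a.1 : XT τ × ℕ))) kap0 := by
  ext a a'
  rw [dgr, mul_diagonal, mul_diagonal]
  by_cases h : 1 ≤ mass BI (pos (a'.1 : XT τ × ℕ))
  · rw [kap0_eq_zero_of_ge h, Complex.ofReal_zero, mul_zero, mul_zero]
  · rw [hoff a a' (hd _ a'.1.2 (not_le.1 h))]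

omit [Fintype κ] [DecidableEq κ] in
theorem scM_off (F : Finset (XT τ × ℕ)) (BI : Finset (XT τ)) (f : Matrix κ κ ℂ) (a b : F × κ)
    (h : mass BI (pos (a.1 : XT τ × ℕ)) ≠ mass BI (pos (b.1 : XT τ × ℕ))) :
    scM F f a b = 0 := by
  rw [scM, kroneckerMap_apply, one_apply_ne, zero_mul]
  intro h'
  exact h (by rw [h'])

/-- The total rank. -/
theorem total_rankK {C δ₂ : ℝ} {bb : ℕ}
    (h₂ : ∀ (α κ B : Type) [Fintype α]
    [DecidableEq α] [Fintype κ] [DecidableEq κ] [Fintype B] [DecidableEq B],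
    Fintype.card B ≤ bb →
    ∀ (U U' : Matrix (α × κ) (α × κ) ℂ) (f : Matrix κ κ ℂ) (Q : α → Matrix B B ℂ),
    ‖U‖ ≤ C → ‖U'‖ ≤ C → U * U' = 1 → U' * U = 1 → f * f = f → IsBun Q →
    (∀ a, (Q a).rank = 1) → AlmComm δ₂ U (fun a : α × κ => Q a.1) →
    AlmComm δ₂ U' (fun a : α × κ => Q a.1) → ‖f‖ ≤ 1 →
    rk (tw (fun a : α × κ => Q a.1) (U * ((1 : Matrix α α ℂ) ⊗ₖ f) * U')) =
      Fintype.card α * f.rank)
    (F : Finset (XT τ × ℕ)) (B2 : Finset (XT τ)) (hb : Fintype.card B2 ≤ bb)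
    (c : XT τ → XT τ → XT τ → ℤ) (hs : ∀ i ∈ F, (pos i).1.support ⊆ B2)
    (hc : ∀ i ∈ F, CocAt c (pos i)) (f : Matrix κ κ ℂ) (hf : f * f = f) (hfs : fᴴ = f)
    (U U' : Matrix (F × κ) (F × κ) ℂ) (h1 : U * U' = 1) (h1' : U' * U = 1)
    (hU : ‖U‖ ≤ C) (hU' : ‖U'‖ ≤ C)
    (hcU : AlmComm δ₂ U (fun a : F × κ => Qb B2 c (pos (a.1 : XT τ × ℕ))))
    (hcU' : AlmComm δ₂ U' (fun a : F × κ => Qb B2 c (pos (a.1 : XT τ × ℕ)))) :
    (rk (tw (fun a : F × κ => Qb B2 c (pos (a.1 : XT τ × ℕ)))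
      (U * scM F f * U')) : ℤ) = Fintype.card F * f.rank := by
  have h := h₂ F κ B2 hb U U' f
    (fun i => Qb B2 c (pos (i : XT τ × ℕ))) hU hU' h1 h1' hf
    (fun i => Qb_bun (hs i i.2) (hc _ i.2))
    (fun i => Qb_rank (hs i i.2) (hc _ i.2)) hcU hcU' (norm_le_one_of_proj hfs hf)
  have h' := congrArg (Nat.cast : ℕ → ℤ) h
  push_cast at h'
  exact h'

/-- The analysis of the finite matrices: they force divisibility. -/
theorem finite_coreK (C : ℝ) (bb : ℕ) : ∃ δ > 0, ∀ (τ : Tower) [DecidableEq (XT τ)]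
    (κ : Type) [Fintype κ] [DecidableEq κ]
    (r n D : ℕ) (_ : (2 : ℝ) ≤ r) (_ : 4 * r < n) (_ : 1 ≤ D) (s : ℤ)
    (χ : XT τ → Fin D) (_ : ∀ x y, x ≠ y → dist x y ≤ (r : ℝ) → χ x ≠ χ y)
    (b : XT τ → XT τ → ℤ) (c : XT τ → XT τ → XT τ → ℤ)
    (_ : ∀ p : RPt (XT τ), InRips r p → (∀ x ∈ p.1.support, x.n = n ∧ 2 * n + r ≤ x.l) →
      CocAt c p ∧ ∀ x ∈ p.1.support, ∀ y ∈ p.1.support, ∀ z ∈ p.1.support,
        ((11 ^ n : ℕ) : ℤ) * c x y z = c0 n x y z + (b y z - b x z + b x y))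
    (BI B1 B2 : Finset (XT τ)) (_ : BI = lowF τ n (2 * n + 2 * r + 1))
    (_ : B1 = lowF τ n (2 * n + 2 * r + 1 + r)) (_ : B2 = lowF τ n (2 * n + 2 * r + 1 + r + r))
    (KM : ℕ → RPt (XT τ) → Matrix (Σ _ : Ev D, B2) (Σ _ : Od D, B2) ℂ)
    (_ : ∀ i, ∀ p : RPt (XT τ), p.1.support ⊆ B2 → CocAt c p →
      Set.InjOn χ p.1.support →
        KM i p * (KM i p)ᴴ = Matrix.blockDiagonal'
          (fun S : Ev D => Qb B2 ((i + S.1.card) • c) p) ∧
        (KM i p)ᴴ * KM i p = Matrix.blockDiagonal'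
          (fun S : Od D => Qb B2 ((i + S.1.card) • c) p))
    (_ : Fintype.card B2 ≤ bb)
    (_ : Fintype.card (Σ _ : Ev D, B2) ≤ bb)
    (_ : Fintype.card (Σ _ : Od D, B2) ≤ bb)
    (𝓖 : Finset (RPt (XT τ) → ℂ))
    (_ : ∀ φ ∈ ({kap1, kapm, kapp} : Set (ℝ → ℝ)), (fun p => ((φ (mass BI p) : ℝ) : ℂ)) ∈ 𝓖)
    (_ : ∀ j ≤ D, ∀ x y, (fun p => Qb B2 (j • c0 n) p x y) ∈ 𝓖 ∧
        (fun p => star (Qb B2 (j • c0 n) p x y)) ∈ 𝓖)
    (_ : ∀ j ≤ D, ∀ x y, (fun p => Mb B2 (j • c0 n) (j • b) p x y) ∈ 𝓖 ∧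
        (fun p => star (Mb B2 (j • c0 n) (j • b) p x y)) ∈ 𝓖)
    (_ : ∀ i ≤ D * 11 ^ n + D, ∀ x y, (fun p => Qb B2 (i • c) p x y) ∈ 𝓖 ∧
        (fun p => star (Qb B2 (i • c) p x y)) ∈ 𝓖)
    (_ : ∀ i ≤ D * 11 ^ n, ∀ x y, (fun p => KM i p x y) ∈ 𝓖 ∧
        (fun p => star (KM i p x y)) ∈ 𝓖)
    (F : Finset (XT τ × ℕ)) (_ : ∀ j ∈ F, GoodB r B2 j)
    (f : Matrix κ κ ℂ) (_ : f * f = f) (_ : fᴴ = f)
    (E' : Matrix (F × κ) (F × κ) ℂ)
    (_ : ∀ a b : F × κ, (¬ ∃ x ∈ (pos (b.1 : XT τ × ℕ)).1.support, x.l = 0) →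
      E' a b = scM F f a b)
    (_ : ∀ j ≤ D,
      NearId (tw (fun a : {a : F × κ // 1 / 2 < mass BI (pos (a.1 : XT τ × ℕ))} =>
        Qb B2 (j • c0 n) (pos (a.1.1 : XT τ × ℕ)))
        (E'.submatrix Subtype.val Subtype.val)) (1 / 8) ∧
      (rk (tw (fun a : {a : F × κ // 1 / 2 < mass BI (pos (a.1 : XT τ × ℕ))} =>
        Qb B2 (j • c0 n) (pos (a.1.1 : XT τ × ℕ)))
        (E'.submatrix Subtype.val Subtype.val)) : ℤ) =
        f.rank * Fintype.card {i : F // 1 / 2 < mass BI (pos (i : XT τ × ℕ))} + s * j)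
    (U U' : Matrix (F × κ) (F × κ) ℂ), U * U' = 1 → U' * U = 1 →
    ‖U‖ ≤ C → ‖U'‖ ≤ C →
    (∀ g ∈ 𝓖, ‖U * dg F g - dg F g * U‖ ≤ δ ∧ ‖U' * dg F g - dg F g * U'‖ ≤ δ) →
    (∀ g ∈ 𝓖, (∀ p, InRips r p → g p ≠ 0 → p.1.support ⊆ B1) →
      ‖(U * scM F f * U' - E') * dg F g‖ ≤ δ) →
    ((11 ^ n : ℕ) : ℤ) ∣ s := by
  obtain ⟨δ₁, hδ₁, h₁⟩ := core_abs (C * C) bb
  obtain ⟨δ₂, hδ₂, h₂⟩ := rk_tw_conj C bb
  refine ⟨min (min δ₁ δ₂) (δ₁ / (2 * (|C| + 1))), lt_min (lt_min hδ₁ hδ₂) (by positivity), ?_⟩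
  intro τ _ κ _ _ r n D hr hrn hD s χ hχ b c hbc BI B1 B2 hBI hB1 hB2 KM hKM hb0 hb1 hb2
    𝓖 hφ hQ hM hQc hK F hF f hf hfs E' hoff hlow U U' hUU hUU' hU hU' hcomm hclose
  set δ := min (min δ₁ δ₂) (δ₁ / (2 * (|C| + 1))) with hδ
  have l1 : δ ≤ δ₁ := (min_le_left _ _).trans (min_le_left _ _)
  have l2 : δ ≤ δ₂ := (min_le_left _ _).trans (min_le_right _ _)
  have l3 : 2 * C * δ ≤ δ₁ := by
    have h1 : δ ≤ δ₁ / (2 * (|C| + 1)) := min_le_right _ _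
    have h2 : 0 < 2 * (|C| + 1) := by positivity
    rw [le_div_iff₀ h2] at h1
    have h3 : 0 < δ := lt_min (lt_min hδ₁ hδ₂) (by positivity)
    have h4 : C ≤ |C| := le_abs_self C
    linarith only [mul_nonneg (le_of_lt (sub_pos.2 h3)) (sub_nonneg.2 h4), h3, h1]
  have hsup : ∀ a : F × κ, (pos (a.1 : XT τ × ℕ)).1.support ⊆ B2 := fun a =>
    (hF a.1 a.1.2).2
  have hrips : ∀ a : F × κ, InRips r (pos (a.1 : XT τ × ℕ)) := fun a =>
    (hF a.1 a.1.2).1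
  have hcomp : ∀ a : F × κ, ∀ x ∈ (pos (a.1 : XT τ × ℕ)).1.support, x.n = n := by
    intro a x hx
    have h := hsup a hx
    rw [hB2, mem_lowF] at h
    exact h.1
  have hcoc : ∀ (j : ℕ) (i : XT τ × ℕ), i ∈ F → CocAt (j • c0 n) (pos i) := by
    intro j i hi
    refine cocAt_c0 hrn j (hF i hi).1 ⟨i.1, fst_mem_support_pos i, ?_⟩
    have h := (hF i hi).2 (fst_mem_support_pos i)
    rw [hB2, mem_lowF] at h
    exact h.1
  have hn1 : ‖scM F f‖ ≤ 1 := norm_scM_le_one F hf hfs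
  have hz : U * scM F f * U' * (U * scM F f * U') = U * scM F f * U' := by
    calc _ = U * scM F f * (U' * U) * (scM F f * U') := by
          simp only [Matrix.mul_assoc]
      _ = _ := by
          rw [hUU', Matrix.mul_one, ← Matrix.mul_assoc, Matrix.mul_assoc U, scM_idem F hf]
  have hzc : ∀ g ∈ 𝓖, ‖U * scM F f * U' * dg F g - dg F g * (U * scM F f * U')‖ ≤ δ₁ :=
    fun g hg => (norm_conj_comm hU hU' hn1 (scM_dg F f g)
      (hcomm g hg).1 (hcomm g hg).2).trans l3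
  -- the deep part
  have hdeep : ∀ a : F × κ, mass BI (pos (a.1 : XT τ × ℕ)) < 1 →
      ∀ x ∈ (pos (a.1 : XT τ × ℕ)).1.support, x.n = n ∧ 2 * n + r < x.l := by
    intro a ha
    rw [hBI] at ha
    exact deep_of_mass (by omega) (hrips a) (hcomp a) ha
  have hdeep' : ∀ a : F × κ, ¬ 1 / 2 < mass BI (pos (a.1 : XT τ × ℕ)) →
      CocAt c (pos (a.1 : XT τ × ℕ)) ∧ ∀ x ∈ (pos (a.1 : XT τ × ℕ)).1.support,
        ∀ y ∈ (pos (a.1 : XT τ × ℕ)).1.support, ∀ z ∈ (pos (a.1 : XT τ × ℕ)).1.support,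
        ((11 ^ n : ℕ) : ℤ) * c x y z = c0 n x y z + (b y z - b x z + b x y) := by
    intro a ha
    refine hbc _ (hrips a) fun x hx => ?_
    have h := hdeep a (by linarith only [ha]) x hx
    exact ⟨h.1, h.2.le⟩
  have hinj : ∀ a : F × κ, Set.InjOn χ (pos (a.1 : XT τ × ℕ)).1.support := by
    intro a x hx y hy hxy
    by_contra hne
    exact hχ x y hne (hrips a x hx y hy) hxy
  have hover : ∀ a ∈ F, mass BI (pos a) < 1 → ¬ ∃ x ∈ (pos a).1.support, x.l = 0 := by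
    rintro a ha h ⟨x, hx, hx0⟩
    rw [hBI] at h
    have hco : ∀ x ∈ (pos a).1.support, x.n = n := by
      intro x hx
      have h := (hF a ha).2 hx
      rw [hB2, mem_lowF] at h
      exact h.1
    have := deep_of_mass (by omega) (hF a ha).1 hco h x hx
    omega
  have hbd : ((11 ^ n : ℕ) : ℤ) ∣ s := by
    refine h₁ (F × κ) B2 D (11 ^ n) (U * scM F f * U') E'
      (scM F f) (fun a => mass BI (pos (a.1 : XT τ × ℕ)))
      (fun j a => Qb B2 (j • c0 n) (pos (a.1 : XT τ × ℕ)))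
      (fun i a => Qb B2 (i • c) (pos (a.1 : XT τ × ℕ)))
      (fun j a => Mb B2 (j • c0 n) (j • b) (pos (a.1 : XT τ × ℕ)))
      (fun i a => KM i (pos (a.1 : XT τ × ℕ)))
      (Fintype.card F * f.rank : ℤ)
      (f.rank * Fintype.card {i : F // 1 / 2 < mass BI (pos (i : XT τ × ℕ))} : ℤ)
      s hD (Nat.one_le_pow _ _ (by norm_num)) hb0 hb1 hb2 hz
      (norm_conj_le hU hU' hn1) ?_ ?_ ?_ ?_ ?_ ?_ ?_ ?_ ?_ ?_ ?_ ?_ ?_ ?_ ?_
    · -- bundles
      intro j hj a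
      exact Qb_bun (hsup a) (hcoc j _ a.1.2)
    · intro j hj
      refine almComm_dg F (Qb B2 (j • c0 n)) fun x y => ⟨?_, ?_⟩
      · exact hzc _ (hQ j hj x y).1
      · exact hzc _ (hQ j hj x y).2
    · intro j hj
      refine almComm_dg F (Mb B2 (j • c0 n) (j • b)) fun x y => ⟨?_, ?_⟩
      · exact hzc _ (hM j hj x y).1
      · exact hzc _ (hM j hj x y).2
    · intro i hi
      refine almComm_dg F (Qb B2 (i • c)) fun x y => ⟨?_, ?_⟩
      · exact hzc _ (hQc i hi x y).1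
      · exact hzc _ (hQc i hi x y).2
    · intro i hi
      refine almComm_dg F (KM i) fun x y => ⟨?_, ?_⟩
      · exact hzc _ (hK i hi x y).1
      · exact hzc _ (hK i hi x y).2
    · intro i a ha
      exact Qb_bun (hsup a) ((hdeep' a ha).1.nsmul i)
    · intro j a ha
      refine Mb_iso (hsup a) (hcoc j _ a.1.2) fun x hx y hy z hz => ?_
      have h := (hdeep' a ha).2 x hx y hy z hz
      simp only [Pi.smul_apply, nsmul_eq_mul]
      push_cast at h ⊢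
      linear_combination (j : ℤ) * h
    · intro i a ha
      exact hKM i _ (hsup a) (hdeep' a ha).1 (hinj a)
    · -- closeness
      refine (hclose _ (hφ kap1 (by simp)) ?_).trans l1
      intro p hp hne
      have h1 : 0 < mass BI p := by
        by_contra h0
        have h2 : mass BI p ≤ 1 / 16 := by linarith only [h0]
        exact hne (by rw [kap1_eq_zero h2, Complex.ofReal_zero])
      rw [hB1]
      rw [hBI] at h1
      exact low_of_mass (by omega) hp h1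
    · exact E_mul_kap F BI f E' hoff hover
    · exact scM_off F BI f
    · rw [dgr_mass_eq]
      exact hzc _ (hφ kapm (by simp))
    · rw [dgr_mass_eq]
      exact hzc _ (hφ kapp (by simp))
    · -- total rank
      intro j hj
      refine total_rankK h₂ F B2 hb0 (j • c0 n) (fun i hi => (hF i hi).2) (hcoc j) f hf hfs U U'
        hUU hUU' hU hU' ?_ ?_
      · exact almComm_dg F (Qb B2 (j • c0 n)) fun x y =>
          ⟨(hcomm _ (hQ j hj x y).1).1.trans l2, (hcomm _ (hQ j hj x y).2).1.trans l2⟩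
      · exact almComm_dg F (Qb B2 (j • c0 n)) fun x y =>
          ⟨(hcomm _ (hQ j hj x y).1).2.trans l2, (hcomm _ (hQ j hj x y).2).2.trans l2⟩
    · -- low rank
      exact fun j hj => hlow j hj
  exact hbd

end Core

end Vale.Agent.P212.H268
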