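import Vale.Agent.P212.H268.D

/-! Block sums of families of `2 × 2` matrices and relations in `K_0`. -/

namespace Vale.Agent.P212.H268

open Vale.Agent.P212 NNReal Matrix
open scoped Matrix.Norms.L2Operator Kronecker

section Fam

/-- The block sum of a family of `2 × 2` matrices. -/
def famD {R : Type} [Zero R] {N : ℕ} (W : Fin N → Matrix (Fin 2) (Fin 2) R) :
    Matrix (Fin N × Fin 2) (Fin N × Fin 2) R := fun a b => if a.1 = b.1 then W a.1 a.2 b.2 else 0

/-- The matrix `(W_1 ⊕ ... ⊕ W_N ⊕ 1_k) ⊕ 0`. -/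
def stabF {R : Type} [Ring R] {N : ℕ} (k : ℕ) (W : Fin N → Matrix (Fin 2) (Fin 2) R) :
    Matrix (Ix N k ⊕ Ix N k) (Ix N k ⊕ Ix N k) R :=
  fromBlocks (fromBlocks (famD W) 0 0 1) 0 0 0

variable {R S : Type} [Ring R] [Ring S]

theorem famD_idem {N : ℕ} {W : Fin N → Matrix (Fin 2) (Fin 2) R} (hW : ∀ q, W q * W q = W q) :
    famD W * famD W = famD W := by
  ext ⟨i, a⟩ ⟨j, b⟩
  have h : (W i * W i) a b = W i a b := by rw [hW]
  rw [Matrix.mul_apply] at h
  rw [Matrix.mul_apply, Fintype.sum_prod_type]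
  simp only [famD]
  rw [Finset.sum_eq_single i]
  · by_cases hij : i = j
    · subst hij
      simp [h]
    · simp [hij]
  · intro k _ hk
    simp [Ne.symm hk]
  · simp

theorem famD_map (φ : R →+* S) {N : ℕ} (W : Fin N → Matrix (Fin 2) (Fin 2) R) :
    (famD W).map φ = famD (fun q => (W q).map φ) := by
  ext ⟨i, a⟩ ⟨j, b⟩
  simp only [famD, Matrix.map_apply]
  split_ifs <;> simp

theorem stabF_map (φ : R →+* S) {N : ℕ} (k : ℕ) (W : Fin N → Matrix (Fin 2) (Fin 2) R) :
    (stabF k W).map φ = stabF k (fun q => (W q).map φ) := by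
  simp only [stabF, Matrix.fromBlocks_map, famD_map, Matrix.map_zero _ (map_zero φ)]
  rw [Matrix.map_one _ (map_zero φ) (map_one φ)]

theorem stabF_idem {N : ℕ} (k : ℕ) {W : Fin N → Matrix (Fin 2) (Fin 2) R}
    (hW : ∀ q, W q * W q = W q) : stabF k W * stabF k W = stabF k W := by
  simp only [stabF, Matrix.fromBlocks_multiply, Matrix.mul_zero, Matrix.zero_mul, add_zero,
    zero_add, Matrix.mul_one, famD_idem hW]

theorem cls_famD {N : ℕ} {W : Fin N → Matrix (Fin 2) (Fin 2) R}
    (hW : ∀ q, W q * W q = W q) (h : famD W * famD W = famD W) :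
    K0.cls (famD W) h = ∑ q, K0.cls (W q) (hW q) := by
  induction N with
  | zero =>
    rw [Finset.univ_eq_empty, Finset.sum_empty, ← K0.cls_zero (ι := Fin 0 × Fin 2)]
    apply K0.cls_congr
    ext ⟨i, a⟩
    exact i.elim0
  | succ N ih =>
    have hW' : ∀ q : Fin N, W q.castSucc * W q.castSucc = W q.castSucc := fun q => hW _
    have h' := famD_idem hW'
    rw [Fin.sum_univ_castSucc, ← ih hW' h', ← K0.cls_blocks h' (hW (Fin.last N))]
    let σ : (Fin N × Fin 2) ⊕ Fin 2 ≃ Fin (N + 1) × Fin 2 :=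
      ((Equiv.sumCongr (Equiv.refl _) (Equiv.punitProd.{0, 0} (Fin 2)).symm).trans
        (Equiv.sumProdDistrib (Fin N) PUnit.{1} (Fin 2)).symm).trans
        (Equiv.prodCongr ((Equiv.optionEquivSumPUnit.{0, 0} (Fin N)).symm.trans
          (finSuccEquivLast (n := N)).symm) (Equiv.refl _))
    rw [← K0.cls_submatrix h σ]
    apply K0.cls_congr
    ext i j
    rcases i with ⟨i, a⟩ | a <;> rcases j with ⟨j, b⟩ | b
    · simp [σ, famD, finSuccEquivLast]
    · simp [σ, famD, finSuccEquivLast]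
    · simp [σ, famD, finSuccEquivLast]
      intro h
      exact absurd h (Fin.castSucc_lt_last j).ne'
    · simp [σ, famD, finSuccEquivLast]

/-- A relation in `K_0` gives a conjugation with augmentation one. -/
theorem extractF {A : Type} [Ring A] [Algebra ℂ A] (aug : A →ₐ[ℂ] ℂ) {N : ℕ}
    {W : Fin N → Matrix (Fin 2) (Fin 2) A} (hW : ∀ q, W q * W q = W q)
    {w : Fin N → Matrix (Fin 2) (Fin 2) ℂ} (hw : ∀ q, w q * w q = w q)
    (haug : ∀ q, (W q).map aug = w q)
    (h : ∑ q, K0.cls (W q) (hW q) =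
      ∑ q, K0.cls ((w q).map (algebraMap ℂ A)) (mapMat_idem (algebraMap ℂ A) (hw q))) :
    ∃ (k : ℕ) (G G' : Matrix (Ix N k ⊕ Ix N k) (Ix N k ⊕ Ix N k) A),
      G * G' = 1 ∧ G' * G = 1 ∧ G.map aug = 1 ∧ G'.map aug = 1 ∧
      stabF k W * G = G * (stabF k w).map (algebraMap ℂ A) := by
  have hw' : ∀ q, (w q).map (algebraMap ℂ A) * (w q).map (algebraMap ℂ A) =
      (w q).map (algebraMap ℂ A) := fun q => mapMat_idem (algebraMap ℂ A) (hw q)
  rw [← cls_famD hW (famD_idem hW),
    ← cls_famD (W := fun q => (w q).map (algebraMap ℂ A)) hw' (famD_idem hw')] at h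
  obtain ⟨k, hk⟩ := (K0.cls_eq_iff _ _).1 h
  obtain ⟨G, G', hG1, hG2, hG3⟩ := conj_of_mvn
    (blocks_idem (famD_idem hW) (one_mul 1))
    (blocks_idem (famD_idem hw') (one_mul 1)) hk
  have hs' : stabF k (fun q => (w q).map (algebraMap ℂ A)) =
      (stabF k w).map (algebraMap ℂ A) := (stabF_map (algebraMap ℂ A) k w).symm
  change stabF k W * G = G * stabF k (fun q => (w q).map (algebraMap ℂ A)) at hG3
  rw [hs'] at hG3
  set a : Matrix (Ix N k ⊕ Ix N k) (Ix N k ⊕ Ix N k) ℂ := G.map aug with ha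
  set a' : Matrix (Ix N k ⊕ Ix N k) (Ix N k ⊕ Ix N k) ℂ := G'.map aug with ha'
  have haa' : a * a' = 1 := by
    have : (G * G').map (aug : A →+* ℂ) = (1 : Matrix _ _ A).map (aug : A →+* ℂ) := by
      rw [hG1]
    rw [Matrix.map_mul, Matrix.map_one _ (map_zero _) (map_one _)] at this
    exact this
  have ha'a : a' * a = 1 := by
    have : (G' * G).map (aug : A →+* ℂ) = (1 : Matrix _ _ A).map (aug : A →+* ℂ) := by
      rw [hG2]
    rw [Matrix.map_mul, Matrix.map_one _ (map_zero _) (map_one _)] at this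
    exact this
  set s : Matrix (Ix N k ⊕ Ix N k) (Ix N k ⊕ Ix N k) ℂ := stabF k w with hs
  have hau : ∀ M : Matrix (Ix N k ⊕ Ix N k) (Ix N k ⊕ Ix N k) ℂ,
      (M.map (algebraMap ℂ A)).map (aug : A →+* ℂ) = M := by
    intro M
    ext i j
    simp
  have hsa : s * a = a * s := by
    have : (stabF k W * G).map (aug : A →+* ℂ) =
        (G * s.map (algebraMap ℂ A)).map (aug : A →+* ℂ) := by
      rw [hG3]
    rw [Matrix.map_mul, Matrix.map_mul, stabF_map, hau] at this
    have h3 : (fun q => (W q).map (aug : A →+* ℂ)) = w := funext haug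
    rw [h3] at this
    exact this
  have hsa' : s * a' = a' * s := by
    calc s * a' = (a' * a) * (s * a') := by rw [ha'a, Matrix.one_mul]
      _ = a' * (a * s) * a' := by simp only [Matrix.mul_assoc]
      _ = a' * (s * a) * a' := by rw [hsa]
      _ = a' * s * (a * a') := by simp only [Matrix.mul_assoc]
      _ = a' * s := by rw [haa', Matrix.mul_one]
  refine ⟨k, G * a'.map (algebraMap ℂ A), a.map (algebraMap ℂ A) * G', ?_, ?_, ?_, ?_, ?_⟩
  · calc G * a'.map (algebraMap ℂ A) * (a.map (algebraMap ℂ A) * G')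
        = G * (a'.map (algebraMap ℂ A) * a.map (algebraMap ℂ A)) * G' := by
          simp only [Matrix.mul_assoc]
      _ = 1 := by
          rw [← Matrix.map_mul, ha'a, Matrix.map_one _ (map_zero _) (map_one _), Matrix.mul_one,
            hG1]
  · calc a.map (algebraMap ℂ A) * G' * (G * a'.map (algebraMap ℂ A))
        = a.map (algebraMap ℂ A) * (G' * G) * a'.map (algebraMap ℂ A) := by
          simp only [Matrix.mul_assoc]
      _ = 1 := by
          rw [hG2, Matrix.mul_one, ← Matrix.map_mul, haa',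
            Matrix.map_one _ (map_zero _) (map_one _)]
  · change (G * a'.map (algebraMap ℂ A)).map (aug : A →+* ℂ) = 1
    rw [Matrix.map_mul, hau]
    exact haa'
  · change (a.map (algebraMap ℂ A) * G').map (aug : A →+* ℂ) = 1
    rw [Matrix.map_mul, hau]
    exact haa'
  · rw [← Matrix.mul_assoc, hG3, Matrix.mul_assoc, Matrix.mul_assoc, ← Matrix.map_mul,
      ← Matrix.map_mul, hsa']

end Fam

/-! ### Signs -/

section Sign

variable {R S : Type} [Ring R] [Ring S]

/-- `E` or `1 - E`. -/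
def sgnM (s : Bool) (E : Matrix (Fin 2) (Fin 2) R) : Matrix (Fin 2) (Fin 2) R :=
  if s then E else 1 - E

theorem sgnM_idem (s : Bool) {E : Matrix (Fin 2) (Fin 2) R} (hE : E * E = E) :
    sgnM s E * sgnM s E = sgnM s E := by
  cases s
  · exact one_sub_idem hE
  · exact hE

theorem sgnM_map (φ : R →+* S) (s : Bool) (E : Matrix (Fin 2) (Fin 2) R) :
    (sgnM s E).map φ = sgnM s (E.map φ) := by
  cases s
  · change (1 - E).map φ = 1 - E.map φ
    rw [Matrix.map_sub _ (map_sub φ), Matrix.map_one _ (map_zero φ) (map_one φ)]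
  · rfl

theorem cls_sgnM (s : Bool) {E : Matrix (Fin 2) (Fin 2) R} (hE : E * E = E) :
    K0.cls (sgnM s E) (sgnM_idem s hE) = if s then K0.cls E hE else
      K0.cls (1 : Matrix (Fin 2) (Fin 2) R) (one_mul 1) - K0.cls E hE := by
  cases s
  · rw [if_neg (by simp), eq_sub_iff_add_eq]
    have h1 : (1 - E) * E = 0 := by rw [Matrix.sub_mul, Matrix.one_mul, hE, sub_self]
    have h2 : E * (1 - E) = 0 := by rw [Matrix.mul_sub, Matrix.mul_one, hE, sub_self]
    rw [← K0.cls_add (sgnM_idem false hE) hE h1 h2 (by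
      change ((1 - E) + E) * ((1 - E) + E) = (1 - E) + E
      rw [sub_add_cancel, one_mul])]
    exact K0.cls_congr _ (sub_add_cancel 1 E)
  · rfl

end Sign

end Vale.Agent.P212.H268
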