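import Vale.Agent.P212.H268.E

/-! Relations between the classes force divisibility. -/

namespace Vale.Agent.P212.H268

open Vale.Agent.P212 NNReal Matrix
open scoped Matrix.Norms.L2Operator Kronecker

section Ent

/-- The scalar matrix on the doubled index set. -/
def fF {N : ℕ} (k : ℕ) (w : Fin N → Matrix (Fin 2) (Fin 2) ℂ) :
    Matrix (Ix2 N k) (Ix2 N k) ℂ := fromBlocks (stabF k w) 0 0 0

theorem fF_idem {N : ℕ} (k : ℕ) {w : Fin N → Matrix (Fin 2) (Fin 2) ℂ}
    (hw : ∀ q, w q * w q = w q) : fF k w * fF k w = fF k w := by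
  simp only [fF, Matrix.fromBlocks_multiply, Matrix.mul_zero, Matrix.zero_mul, add_zero,
    stabF_idem k hw]

theorem fF_star {N : ℕ} (k : ℕ) {w : Fin N → Matrix (Fin 2) (Fin 2) ℂ}
    (hw : ∀ q, (w q)ᴴ = w q) : (fF k w)ᴴ = fF k w := by
  have h1 : (famD w)ᴴ = famD w := by
    ext ⟨i, a⟩ ⟨j, b⟩
    rw [conjTranspose_apply]
    simp only [famD]
    by_cases h : i = j
    · subst h
      rw [if_pos rfl, if_pos rfl]
      exact congrFun (congrFun (hw i) a) b
    · rw [if_neg h, if_neg (Ne.symm h), star_zero]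
  simp only [fF, stabF, Matrix.fromBlocks_conjTranspose, h1, conjTranspose_zero,
    conjTranspose_one]

theorem fF_some {N : ℕ} (k : ℕ) (w : Fin N → Matrix (Fin 2) (Fin 2) ℂ) (p q : Fin N × Fin 2) :
    fF k w (Sum.inl (Sum.inl (Sum.inl p))) (Sum.inl (Sum.inl (Sum.inl q))) =
      if p.1 = q.1 then w p.1 p.2 q.2 else 0 := by
  simp only [fF, stabF, fromBlocks_apply₁₁, famD]

/-- The scalar matrix respects the copies. -/
theorem fF_ne {N k : ℕ} (w : Fin N → Matrix (Fin 2) (Fin 2) ℂ) {x y : Ix2 N k}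
    (h : (beiCpy x).map Prod.fst ≠ (beiCpy y).map Prod.fst) : fF k w x y = 0 := by
  rcases x with ((x | x) | x) | x <;> rcases y with ((y | y) | y) | y <;>
    simp only [fF, stabF, fromBlocks_apply₁₁, fromBlocks_apply₁₂,
      fromBlocks_apply₂₁, fromBlocks_apply₂₂, Matrix.zero_apply]
  · rw [famD, if_neg]
    intro h'
    apply h
    simp [beiCpy, h']
  · exact absurd rfl h

/-- The indices in the copies with the property `P`. -/
def OnI {N k : ℕ} (P : Fin N → Prop) (z : Ix2 N k) : Prop :=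
  ∃ q a, P q ∧ z = Sum.inl (Sum.inl (Sum.inl (q, a)))

/-- The copies with the property `P` and the rest. -/
theorem exists_split {N k : ℕ} (P : Fin N → Prop) [DecidablePred P]
    {w : Fin N → Matrix (Fin 2) (Fin 2) ℂ} (hw : ∀ q, w q * w q = w q)
    (hws : ∀ q, (w q)ᴴ = w q) (hP : ∀ q, P q → w q = e11 ℂ) :
    ∃ (κ' : Type) (_ : Fintype κ') (_ : DecidableEq κ')
      (σ : KI (Fintype.card {q // P q}) κ' ≃ Ix2 N k)
      (e : Fin (Fintype.card {q // P q}) ≃ {q // P q}) (g : Matrix κ' κ' ℂ),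
      g * g = g ∧ gᴴ = g ∧
      (∀ i a, σ (Sum.inl (i, a)) = Sum.inl (Sum.inl (Sum.inl ((e i).1, a)))) ∧
      (∀ y, ¬ OnI P (σ (Sum.inr y))) ∧
      (fF k w).submatrix σ σ = fK (Fintype.card {q // P q}) g := by
  classical
  set M := Fintype.card {q // P q} with hM
  have e : Fin M ≃ {q // P q} := (Fintype.equivFin {q // P q}).symm
  let f1 : Fin M × Fin 2 → {z : Ix2 N k // OnI P z} := fun p =>
    ⟨Sum.inl (Sum.inl (Sum.inl ((e p.1).1, p.2))), (e p.1).1, p.2, (e p.1).2, rfl⟩
  have hf1 : Function.Bijective f1 := by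
    constructor
    · rintro ⟨i, a⟩ ⟨j, b⟩ h
      have h1 := congrArg Subtype.val h
      simp only [f1, Sum.inl.injEq, Prod.mk.injEq] at h1
      have h2 : i = j := e.injective (Subtype.ext h1.1)
      rw [h2, h1.2]
    · rintro ⟨z, q, a, hq, rfl⟩
      refine ⟨(e.symm ⟨q, hq⟩, a), Subtype.ext ?_⟩
      simp [f1]
  let σ : KI M {z : Ix2 N k // ¬ OnI P z} ≃ Ix2 N k :=
    (Equiv.sumCongr (Equiv.ofBijective f1 hf1) (Equiv.refl _)).trans
      (Equiv.sumCompl (fun z : Ix2 N k => OnI P z))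
  have hσ1 : ∀ i a, σ (Sum.inl (i, a)) = Sum.inl (Sum.inl (Sum.inl ((e i).1, a))) :=
    fun i a => rfl
  have hσ2 : ∀ y : {z : Ix2 N k // ¬ OnI P z}, σ (Sum.inr y) = y.1 := fun y => rfl
  have hoff : ∀ (i : Fin M) (a : Fin 2) (y : {z : Ix2 N k // ¬ OnI P z}),
      fF k w (σ (Sum.inl (i, a))) (σ (Sum.inr y)) = 0 ∧
      fF k w (σ (Sum.inr y)) (σ (Sum.inl (i, a))) = 0 := by
    intro i a y
    have h1 : (beiCpy (σ (Sum.inl (i, a)))).map Prod.fst ≠
        (beiCpy (σ (Sum.inr y))).map Prod.fst := by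
      rw [hσ1, hσ2]
      intro h
      change some (e i).1 = _ at h
      obtain ⟨⟨q, b⟩, hp, hp'⟩ := Option.map_eq_some_iff.1 h.symm
      refine y.2 ⟨q, b, ?_, bei_cpy_some hp⟩
      rw [show q = (e i).1 from hp']
      exact (e i).2
    exact ⟨fF_ne w h1, fF_ne w (Ne.symm h1)⟩
  set g : Matrix {z : Ix2 N k // ¬ OnI P z} {z : Ix2 N k // ¬ OnI P z} ℂ :=
    (fF k w).submatrix Subtype.val Subtype.val with hg
  have hfin : (fF k w).submatrix σ σ = fK M g := by
    ext x y
    rcases x with ⟨i, a⟩ | x <;> rcases y with ⟨j, b⟩ | y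
    · rw [submatrix_apply, hσ1, hσ1, fF_some]
      simp only [fK, fromBlocks_apply₁₁, copies]
      by_cases h : i = j
      · subst h
        rw [if_pos rfl, if_pos rfl, hP _ (e i).2]
      · rw [if_neg h, if_neg (fun h' => h (e.injective (Subtype.ext h')))]
    · rw [submatrix_apply, (hoff i a y).1]
      rfl
    · rw [submatrix_apply, (hoff j b x).2]
      rfl
    · rw [submatrix_apply, hσ2, hσ2]
      rfl
  have h1 : fK M g * fK M g = fK M g := by
    rw [← hfin, submatrix_mul_equiv, fF_idem k hw]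
  have h2 : (fK M g)ᴴ = fK M g := by
    rw [← hfin, conjTranspose_submatrix, fF_star k hws]
  refine ⟨_, inferInstance, inferInstance, σ, e, g, ?_, ?_, hσ1, fun y => y.2, hfin⟩
  · rw [fK, fromBlocks_multiply] at h1
    have h3 := (fromBlocks_inj.1 h1).2.2.2
    simpa using h3
  · rw [fK, fromBlocks_conjTranspose] at h2
    exact (fromBlocks_inj.1 h2).2.2.2

variable {τ : Tower} [DecidableEq (XT τ)]

omit [DecidableEq (XT τ)] in
/-- The entries of a compression, for two indices of the copies. -/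
theorem cut_some (N k : ℕ) (F : Finset (XT τ × ℕ))
    (T : Fin N → Matrix (Fin 2) (Fin 2) (BX (XT τ))) (i j : F) (p q : Fin N × Fin 2) :
    cutM F (fromBlocks (stabF k T) 0 0 0 : Matrix (Ix2 N k) (Ix2 N k) (BX (XT τ)))
      (i, Sum.inl (Sum.inl (Sum.inl p))) (j, Sum.inl (Sum.inl (Sum.inl q))) =
      if p.1 = q.1 then ent (T p.1 p.2 q.2) i j else 0 := by
  simp only [cutM, stabF, fromBlocks_apply₁₁, famD]
  split_ifs with h
  · rfl
  · exact ent_zero _ _

/-- The entries of a compression, in the scalar part. -/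
theorem cut_none (N k : ℕ) (F : Finset (XT τ × ℕ))
    (T : Fin N → Matrix (Fin 2) (Fin 2) (BX (XT τ))) (w : Fin N → Matrix (Fin 2) (Fin 2) ℂ)
    (a b : F × Ix2 N k) (hab : beiCpy a.2 = none ∨ beiCpy b.2 = none) :
    cutM F (fromBlocks (stabF k T) 0 0 0 : Matrix (Ix2 N k) (Ix2 N k) (BX (XT τ))) a b =
      if a.1 = b.1 then fF k w a.2 b.2 else 0 := by
  obtain ⟨i, x⟩ := a
  obtain ⟨j, y⟩ := b
  have h1 : ent (1 : BX (XT τ)) i j = if i = j then 1 else 0 := by
    rw [ent_one]
    by_cases h : i = j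
    · rw [if_pos h, if_pos (congrArg Subtype.val h)]
    · rw [if_neg h, if_neg (fun h' => h (Subtype.ext h'))]
  rcases x with ((x | x) | x) | x <;> rcases y with ((y | y) | y) | y <;>
    simp only [cutM, fF, stabF, fromBlocks_apply₁₁, fromBlocks_apply₁₂,
      fromBlocks_apply₂₁, fromBlocks_apply₂₂, Matrix.zero_apply, ent_zero, ite_self]
  · simp [beiCpy] at hab
  · rw [one_apply, one_apply]
    by_cases h : x = y
    · rw [if_pos h, if_pos h, h1]
    · rw [if_neg h, if_neg h, ent_zero, ite_self]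

/-- The compression satisfies the hypotheses of the rank computation. -/
theorem isEhat_cut {N k n m : ℕ} {F : Finset (XT τ × ℕ)}
    (P : Fin N → Prop) [DecidablePred P]
    {T : Fin N → Matrix (Fin 2) (Fin 2) (BX (XT τ))} {w : Fin N → Matrix (Fin 2) (Fin 2) ℂ}
    (hP : ∀ q, P q → w q = e11 ℂ)
    (hT1 : ∀ q, P q → ∀ a b, ∀ i ∈ F, ∀ j ∈ F, ent (T q a b) i j =
      ent (opC (XT τ) (bottE (Upath τ m) (Vpath τ m) a b)) i j)
    (hT2 : ∀ q, ¬ P q → ∀ a b, ∀ i ∈ F, ∀ j ∈ F, ent (T q a b) i j = if i = j then w q a b else 0)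
    {κ' : Type} [Fintype κ'] [DecidableEq κ'] {M : ℕ}
    (σ : KI M κ' ≃ Ix2 N k) (e : Fin M ≃ {q // P q}) {g : Matrix κ' κ' ℂ}
    (hσ1 : ∀ i a, σ (Sum.inl (i, a)) = Sum.inl (Sum.inl (Sum.inl ((e i).1, a))))
    (hσ2 : ∀ y, ¬ OnI P (σ (Sum.inr y)))
    (hfg : (fF k w).submatrix σ σ = fK M g) :
    IsEhat τ n m F M g ((cutM F (fromBlocks (stabF k T) 0 0 0 :
      Matrix (Ix2 N k) (Ix2 N k) (BX (XT τ)))).submatrix (Prod.map id σ) (Prod.map id σ)) := by
  have hfg' : ∀ x y, fF k w (σ x) (σ y) = fK M g x y := fun x y => by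
    rw [← hfg, submatrix_apply]
  -- entries outside the copies with the property `P`
  have key : ∀ (i j : F) (z z' : Ix2 N k), (¬ OnI P z ∨ ¬ OnI P z') →
      cutM F (fromBlocks (stabF k T) 0 0 0 : Matrix (Ix2 N k) (Ix2 N k) (BX (XT τ)))
        (i, z) (j, z') = if i = j then fF k w z z' else 0 := by
    intro i j z z' h
    by_cases hz : beiCpy z = none
    · exact cut_none N k F T w _ _ (Or.inl hz)
    by_cases hz' : beiCpy z' = none
    · exact cut_none N k F T w _ _ (Or.inr hz')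
    obtain ⟨⟨q, a⟩, hp⟩ := Option.ne_none_iff_exists'.1 hz
    obtain ⟨⟨q', b⟩, hp'⟩ := Option.ne_none_iff_exists'.1 hz'
    obtain rfl := bei_cpy_some hp
    obtain rfl := bei_cpy_some hp'
    rw [cut_some, fF_some]
    by_cases hq : q = q'
    · subst hq
      have hnP : ¬ P q := by
        rcases h with h | h
        · exact fun hP => h ⟨q, a, hP, rfl⟩
        · exact fun hP => h ⟨q, b, hP, rfl⟩
      simp only [if_true]
      rw [hT2 q hnP a b i i.2 j j.2]
      by_cases hij : i = j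
      · rw [if_pos hij, if_pos (congrArg Subtype.val hij)]
      · rw [if_neg hij, if_neg (fun h' => hij (Subtype.ext h'))]
    · simp only [if_neg hq, ite_self]
  constructor
  · intro hn i j p q x y hi hj
    obtain ⟨x1, x2⟩ := x
    obtain ⟨y1, y2⟩ := y
    rw [submatrix_apply]
    simp only [Prod.map_apply, id_eq]
    rw [hσ1, hσ1, cut_some]
    by_cases h : x1 = y1
    · subst h
      simp only [if_true]
      rw [hT1 _ (e x1).2 _ _ _ i.2 _ j.2, hi, hj, ent_path]
      rfl
    · rw [if_neg h, if_neg (fun h' => h (e.injective (Subtype.ext h')))]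
  · rintro ⟨i, x⟩ ⟨j, y⟩ h
    rw [submatrix_apply]
    simp only [Prod.map_apply, id_eq]
    rw [← hfg' x y]
    by_cases hx : OnI P (σ x)
    · by_cases hy : OnI P (σ y)
      · obtain ⟨q, a, hq, hxe⟩ := hx
        obtain ⟨q', b, hq', hye⟩ := hy
        rw [hxe, hye, cut_some, fF_some]
        by_cases hqq : q = q'
        · subst hqq
          simp only [if_true]
          rw [hT1 q hq a b i i.2 j j.2, ent_path_off τ m a b _ _ h, hP q hq]
          by_cases hij : i = j
          · rw [if_pos hij, if_pos (congrArg Subtype.val hij)]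
          · rw [if_neg hij, if_neg (fun h' => hij (Subtype.ext h'))]
        · simp only [if_neg hqq, ite_self]
      · exact key i j _ _ (Or.inr hy)
    · exact key i j _ _ (Or.inl hx)
  · rintro ⟨i, x⟩ ⟨j, y⟩ h
    rw [submatrix_apply]
    simp only [Prod.map_apply, id_eq]
    rw [← hfg' x y]
    refine key i j _ _ ?_
    rcases h with h | h
    · obtain ⟨z, rfl⟩ := cpy_none h
      exact Or.inl (hσ2 z)
    · obtain ⟨z, rfl⟩ := cpy_none h
      exact Or.inr (hσ2 z)

end Ent

end Vale.Agent.P212.H268
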