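import Vale.Agent.P212.H268.J

/-! The main theorem. -/

namespace Vale.Agent.P212.H268

open Vale.Agent.P212 Vale.Agent.P212.H35

theorem main : ∃ (X : Type) (_ : MetricSpace X) (_ : BddGeometry X) (_ : UnifDiscrete X),
    (∃ (H A : Type) (_ : NormedAddCommGroup H) (_ : InnerProductSpace ℂ H)
      (_ : CompleteSpace H) (_ : NonUnitalCStarAlgebra A), Counterexample X H A) ∧
    (∃ (H A : Type) (_ : NormedAddCommGroup H) (_ : InnerProductSpace ℂ H)
      (_ : CompleteSpace H) (_ : NonUnitalCStarAlgebra A) (b : HilbertBasis (X × ℕ) ℂ H)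
      (i : (H →L[ℂ] H) → A) (p : X × ℕ → X →₀ ℚ),
      IsReducedRoe b i ∧ IsPlacement p ∧ ¬ RatInjective b i p) ∧
    ∀ (H A : Type) [NormedAddCommGroup H] [InnerProductSpace ℂ H] [CompleteSpace H]
      [NonUnitalCStarAlgebra A] (b : HilbertBasis (X × ℕ) ℂ H) (i : (H →L[ℂ] H) → A)
      (p : X × ℕ → X →₀ ℚ),
      IsMaxRoe b i ∨ IsReducedRoe b i ∨ IsRoeCompletion b i → IsPlacement p →
        ¬ RatInjective b i p ∧ IndepInKernel b i p ℝ := by
  obtain ⟨τ⟩ := exists_tower
  have key : ∀ (H A : Type) [NormedAddCommGroup H] [InnerProductSpace ℂ H] [CompleteSpace H]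
      [NonUnitalCStarAlgebra A] (b : HilbertBasis (XT τ × ℕ) ℂ H) (i : (H →L[ℂ] H) → A)
      (p : XT τ × ℕ → XT τ →₀ ℚ),
      IsMaxRoe b i ∨ IsReducedRoe b i ∨ IsRoeCompletion b i → IsPlacement p →
        ¬ RatInjective b i p ∧ IndepInKernel b i p ℝ := by
    intro H A _ _ _ _ b i p h hp
    have h' : IsRoeCompletion b i := by
      rcases h with h | h | h
      · exact isRoeCompletion_of_isMaxRoe h
      · exact isRoeCompletion_of_isReducedRoe h
      · exact h
    exact ⟨not_ratInjective τ b i p hp h'.1 h'.2.1 h'.2.2, indep_all τ b i p h' hp⟩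
  refine ⟨XT τ, inferInstance, inferInstance, inferInstance, ⟨_, _, _, _, inferInstance, _,
    counterexample_of τ (fun r hr N hN => yL_not_torsion τ r hr N hN)⟩, ?_, key⟩
  have hred : IsReducedRoe (stdB (XT τ × ℕ)) (redF (XT τ)) := exists_reduced (XT τ)
  exact ⟨_, _, _, _, inferInstance, _, stdB (XT τ × ℕ), redF (XT τ), pC, hred, isPlacement_pC,
    (key _ _ _ _ _ (Or.inr (Or.inl hred)) isPlacement_pC).1⟩

end Vale.Agent.P212.H268
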