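import Vale.Agent.P212.H268.F

/-! Relations between the classes force divisibility: the main argument. -/

namespace Vale.Agent.P212.H268

open Vale.Agent.P212 NNReal Matrix
open scoped Matrix.Norms.L2Operator Kronecker

section Low

variable {τ : Tower} [DecidableEq (XT τ)]

/-- The rank of the low part. -/
theorem low_rankF {r n N k m D : ℕ} (hn : 16 ≤ n) (sgn : ℤ)
    (BI B2 : Finset (XT τ)) (hBI : BI = lowF τ n (2 * n + 2 * r + 1))
    (hB2 : B2 = lowF τ n (2 * n + 2 * r + 1 + r + r))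
    (F : Finset (XT τ × ℕ)) (hF : ∀ j ∈ F, GoodB r B2 j)
    (hgr : ∀ g : Grid (sd n m), ji τ m ⟨⟨n, by omega⟩, g⟩ ∈ F)
    (hcoc : ∀ (j : ℕ) (i : XT τ × ℕ), i ∈ F → CocAt (j • c0 n) (pos i))
    (htor1 : ∀ j ≤ D, NearId (tw (gridQ τ B2 j n m) (gridE (sd n m))) (1 / 16))
    (htor2 : ∀ j ≤ D, (rk (tw (gridQ τ B2 j n m) (gridE (sd n m))) : ℤ) =
      (sd n m : ℤ) ^ 2 + sgn * j)
    (P : Fin N → Prop) [DecidablePred P]
    {T : Fin N → Matrix (Fin 2) (Fin 2) (BX (XT τ))} {w : Fin N → Matrix (Fin 2) (Fin 2) ℂ}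
    (hw : ∀ q, w q * w q = w q) (hws : ∀ q, (w q)ᴴ = w q) (hP : ∀ q, P q → w q = e11 ℂ)
    (hT1 : ∀ q, P q → ∀ a b, ∀ i ∈ F, ∀ j ∈ F, ent (T q a b) i j =
      ent (opC (XT τ) (bottE (Upath τ m) (Vpath τ m) a b)) i j)
    (hT2 : ∀ q, ¬ P q → ∀ a b, ∀ i ∈ F, ∀ j ∈ F, ent (T q a b) i j = if i = j then w q a b else 0)
    (j : ℕ) (hj : j ≤ D) :
    NearId (tw (fun a : {a : F × Ix2 N k // 1 / 2 < mass BI (pos (a.1 : XT τ × ℕ))} =>
        Qb B2 (j • c0 n) (pos (a.1.1 : XT τ × ℕ)))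
      ((cutM F (fromBlocks (stabF k T) 0 0 0 :
        Matrix (Ix2 N k) (Ix2 N k) (BX (XT τ)))).submatrix Subtype.val Subtype.val)) (1 / 8) ∧
    (rk (tw (fun a : {a : F × Ix2 N k // 1 / 2 < mass BI (pos (a.1 : XT τ × ℕ))} =>
        Qb B2 (j • c0 n) (pos (a.1.1 : XT τ × ℕ)))
      ((cutM F (fromBlocks (stabF k T) 0 0 0 :
        Matrix (Ix2 N k) (Ix2 N k) (BX (XT τ)))).submatrix Subtype.val Subtype.val)) : ℤ) =
      (fF k w).rank * Fintype.card {i : F // 1 / 2 < mass BI (pos (i : XT τ × ℕ))} +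
        (Fintype.card {q // P q} * sgn) * j := by
  obtain ⟨κ', _, _, σ, e, g, hg1, hg2, hσ1, hσ2, hfg⟩ := exists_split (k := k) P hw hws hP
  have hE := isEhat_cut (F := F) (m := m) (n := n) (k := k) P hP hT1 hT2 σ e hσ1 hσ2 hfg
  set E := cutM F (fromBlocks (stabF k T) 0 0 0 :
    Matrix (Ix2 N k) (Ix2 N k) (BX (XT τ))) with hEdef
  have h := rk_E m n j hn sgn hg1 hg2 F B2 (fun x hx => by
      rw [hB2, mem_lowF] at hx
      exact hx.1) (fun i hi => (hF i hi).2) hgr (hcoc j) (htor1 j hj) (htor2 j hj) hE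
    (fun a => 1 / 2 < mass BI (pos (a.1 : XT τ × ℕ)))
    (fun i : F => 1 / 2 < mass BI (pos (i : XT τ × ℕ))) (fun a => Iff.rfl) (fun g => by
      have h1 : mass BI (pos (ji τ m ⟨⟨n, by omega⟩, g⟩)) = 1 := by
        rw [mass_eq_one_iff, pos_ji]
        intro x hx
        have h2 := support_gpt τ n m g hx
        rw [hBI, mem_lowF]
        exact ⟨h2.1, by omega⟩
      show (1 / 2 : ℝ) < mass BI (pos (ji τ m ⟨⟨n, by omega⟩, g⟩))
      rw [h1]
      norm_num)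
  have hrank : (fF k w).rank = Fintype.card {q // P q} + g.rank := by
    rw [← fK_rank hg1, ← hfg]
    exact (rank_submatrix (fF k w) σ σ).symm
  let τ' : {a : F × KI (Fintype.card {q // P q}) κ' // 1 / 2 < mass BI (pos (a.1 : XT τ × ℕ))} ≃
      {a : F × Ix2 N k // 1 / 2 < mass BI (pos (a.1 : XT τ × ℕ))} :=
    (Equiv.prodCongr (Equiv.refl F) σ).subtypeEquiv (fun a => Iff.rfl)
  have h3 := bei_tw_equiv τ'
    (fun a : {a : F × Ix2 N k // 1 / 2 < mass BI (pos (a.1 : XT τ × ℕ))} =>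
        Qb B2 (j • c0 n) (pos (a.1.1 : XT τ × ℕ)))
    (E.submatrix Subtype.val Subtype.val)
    (fun a => Qb B2 (j • c0 n) (pos (a.1.1 : XT τ × ℕ)))
    ((E.submatrix (Prod.map id σ) (Prod.map id σ)).submatrix Subtype.val Subtype.val)
    (fun b => rfl) (fun b c => rfl) h.1
  refine ⟨h3.1, ?_⟩
  rw [h3.2, h.2, hrank]
  push_cast
  ring

end Low

section Main

variable {τ : Tower}

theorem e11_star : (e11 ℂ)ᴴ = e11 ℂ := by
  ext i j
  fin_cases i <;> fin_cases j <;> simp [e11]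

theorem sgnM_e11_star (s : Bool) : (sgnM s (e11 ℂ))ᴴ = sgnM s (e11 ℂ) := by
  cases s
  · change (1 - e11 ℂ)ᴴ = 1 - e11 ℂ
    rw [conjTranspose_sub, conjTranspose_one, e11_star]
  · exact e11_star

/-- A relation between the classes of the Bott projections forces divisibility. -/
theorem dvd_of_rel (r : ℕ) (hr : (2 : ℝ) ≤ r) {A : Type} [Ring A] [StarRing A] [Algebra ℂ A]
    (S : LocSys (XT τ) r A) (φ : locU (XT τ) r →+* A)
    (hev : ∀ t a, S.ev t (φ a) = (locSys (XT τ) r).ev t a)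
    (haug : ∀ a, S.aug (φ a) = augL (XT τ) r a)
    {N : ℕ} (I : Fin N → Set ℕ) (s : Fin N → Bool)
    (hW : ∀ q, sgnM (s q) ((EI τ (I q) r hr).map φ) * sgnM (s q) ((EI τ (I q) r hr).map φ) =
      sgnM (s q) ((EI τ (I q) r hr).map φ))
    (he : ∀ q, (sgnM (s q) (e11 ℂ)).map (algebraMap ℂ A) *
      (sgnM (s q) (e11 ℂ)).map (algebraMap ℂ A) = (sgnM (s q) (e11 ℂ)).map (algebraMap ℂ A))
    (h : ∑ q, K0.cls (sgnM (s q) ((EI τ (I q) r hr).map φ)) (hW q) =
      ∑ q, K0.cls ((sgnM (s q) (e11 ℂ)).map (algebraMap ℂ A)) (he q)) :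
    ∃ n₀ : ℕ, ∀ n ≥ n₀, (∀ q, n ∈ I q → s q = true) →
      ∀ [DecidablePred fun q => n ∈ I q], 11 ^ n ∣ Fintype.card {q // n ∈ I q} := by
  classical
  have hw : ∀ q, sgnM (s q) (e11 ℂ) * sgnM (s q) (e11 ℂ) = sgnM (s q) (e11 ℂ) :=
    fun q => sgnM_idem (s q) (e11_idem ℂ)
  have hWaug : ∀ q, (sgnM (s q) ((EI τ (I q) r hr).map φ)).map
      ((S.aug : A →⋆ₐ[ℂ] ℂ) : A →ₐ[ℂ] ℂ) = sgnM (s q) (e11 ℂ) := by
    intro q
    have h1 := sgnM_map (((S.aug : A →⋆ₐ[ℂ] ℂ) : A →ₐ[ℂ] ℂ) : A →+* ℂ) (s q)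
      ((EI τ (I q) r hr).map φ)
    refine h1.trans ?_
    congr 1
    rw [← EI_aug τ (I q) r hr]
    ext a b
    exact haug _
  obtain ⟨k, G, G', h1, h2, h3, h4, h5⟩ := extractF
    ((S.aug : A →⋆ₐ[ℂ] ℂ) : A →ₐ[ℂ] ℂ) hW hw hWaug h
  obtain ⟨C, hC⟩ := fin_cut S G G' _ (stabF k fun q => sgnM (s q) (e11 ℂ))
    h1 h2 h3 h4 (stabF_idem k hw) h5
  obtain ⟨sgn, hsgn, htor⟩ := rk_torus
  obtain ⟨D, χ, hχ⟩ := exists_colouring (X := XT τ) (r : ℝ)
  obtain ⟨n₁, hn₁⟩ := exists_div τ r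
  refine ⟨n₁ + 16 + 4 * r + 1, fun n hn hs _ => ?_⟩
  obtain ⟨b, c, hbc⟩ := hn₁ n (by omega)
  have hn16 : 16 ≤ n := by omega
  have hD : 1 ≤ D := by
    have h := (χ (vtx τ 0 0 0)).pos
    omega
  set BI := lowF τ n (2 * n + 2 * r + 1) with hBI
  set B1 := lowF τ n (2 * n + 2 * r + 1 + r) with hB1
  set B2 := lowF τ n (2 * n + 2 * r + 1 + r + r) with hB2
  have hkos := fun i => koszul B2 c D χ i
  choose KM hKMc hKM using hkos
  obtain ⟨δ, hδ, hcore⟩ := finite_coreK C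
    (Fintype.card B2 + Fintype.card (Σ _ : Ev D, B2) + Fintype.card (Σ _ : Od D, B2))
  obtain ⟨𝓖, h𝓖, hφ, hQ, hM, hQc, hK⟩ := exists_big_family BI B2 D (11 ^ n) (c0 n) c b KM hKMc
  obtain ⟨t₀, ht₀⟩ := hC B1 B2 (fun x hx y hd => lowF_close (by omega) hx hd) 𝓖 h𝓖 δ hδ
  have hB2z : ∀ x : XT τ, x.n = n → x.l = 0 → x ∈ B2 := by
    intro x h1 h2
    rw [hB2, mem_lowF]
    exact ⟨h1, by omega⟩
  have hm := fun j : ℕ => htor τ n hn16 B2 hB2z j (1 / 16) (by norm_num)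
  choose m₀ hm₀ using hm
  obtain ⟨m, hm1, hm2⟩ : ∃ m : ℕ, t₀ ≤ m ∧ ∀ j ≤ D, m₀ j ≤ m := by
    obtain ⟨m1, hm1⟩ := exists_nat_ge t₀
    refine ⟨m1 + ∑ j ∈ Finset.range (D + 1), m₀ j, ?_, ?_⟩
    · refine hm1.trans ?_
      exact_mod_cast Nat.le_add_right _ _
    · intro j hj
      refine (Finset.single_le_sum (f := m₀) (fun _ _ => Nat.zero_le _)
        (Finset.mem_range.2 (by omega))).trans (Nat.le_add_left _ _)
  obtain ⟨F₀, hF₀, hF⟩ := ht₀ m hm1
  set F : Finset (XT τ × ℕ) := F₀ ∪ Finset.univ.image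
    (fun g : Grid (sd n m) => ji τ m ⟨⟨n, by omega⟩, g⟩) with hFdef
  have hFg : ∀ j ∈ F, GoodB r B2 j := by
    intro j hj
    rw [hFdef, Finset.mem_union, Finset.mem_image] at hj
    rcases hj with hj | ⟨g, _, rfl⟩
    · exact hF₀ j hj
    · exact goodB_grid r n m _ hr (by omega) (by omega) g
  obtain ⟨U, U', hUU, hUU', hU, hU', hc1, hc2⟩ := hF F Finset.subset_union_left hFg
  have hgrid : ∀ g : Grid (sd n m), ji τ m ⟨⟨n, by omega⟩, g⟩ ∈ F := fun g =>
    Finset.mem_union_right _ (Finset.mem_image_of_mem _ (Finset.mem_univ g))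
  have hFn : ∀ i ∈ F, i.1.n = n := by
    intro i hi
    have h := (hFg i hi).2 (fst_mem_support_pos i)
    rw [hB2, mem_lowF] at h
    exact h.1
  have hcoc : ∀ (j : ℕ) (i : XT τ × ℕ), i ∈ F → CocAt (j • c0 n) (pos i) := by
    intro j i hi
    exact cocAt_c0 (by omega) j (hFg i hi).1 ⟨i.1, fst_mem_support_pos i, hFn i hi⟩
  -- the entries
  set T : Fin N → Matrix (Fin 2) (Fin 2) (BX (XT τ)) := fun q =>
    (sgnM (s q) ((EI τ (I q) r hr).map φ)).map (S.ev m) with hTdef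
  have hT : ∀ q a b, T q a b = sgnM (s q) (fun a b => opC (XT τ)
      (bottE (UpathI τ (I q) m) (VpathI τ (I q) m) a b)) a b := by
    intro q a b
    have h1 := congrFun (congrFun (sgnM_map ((S.ev m : A →⋆ₐ[ℂ] BX (XT τ)) : A →+* BX (XT τ))
      (s q) ((EI τ (I q) r hr).map φ)) a) b
    refine h1.trans ?_
    have h2 : (((EI τ (I q) r hr).map φ).map
        ((S.ev m : A →⋆ₐ[ℂ] BX (XT τ)) : A →+* BX (XT τ))) = fun a b => opC (XT τ)
      (bottE (UpathI τ (I q) m) (VpathI τ (I q) m) a b) := by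
      funext a b
      change S.ev m (φ (EI τ (I q) r hr a b)) = _
      rw [hev, locSys_ev, EI_spec]
    rw [h2]
  have hT1 : ∀ q, n ∈ I q → ∀ a b, ∀ i ∈ F, ∀ j ∈ F, ent (T q a b) i j =
      ent (opC (XT τ) (bottE (Upath τ m) (Vpath τ m) a b)) i j := by
    intro q hq a b i hi j hj
    rw [hT, hs q hq]
    change ent (opC (XT τ) (bottE (UpathI τ (I q) m) (VpathI τ (I q) m) a b)) i j = _
    rw [ent_bottI, if_pos]
    rw [hFn i hi]
    exact hq
  have hT2 : ∀ q, ¬ n ∈ I q → ∀ a b, ∀ i ∈ F, ∀ j ∈ F, ent (T q a b) i j =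
      if i = j then sgnM (s q) (e11 ℂ) a b else 0 := by
    intro q hq a b i hi j hj
    have h1 : ent (opC (XT τ) (bottE (UpathI τ (I q) m) (VpathI τ (I q) m) a b)) i j =
        if i = j then e11 ℂ a b else 0 := by
      rw [ent_bottI, if_neg (show ¬ i.1.n ∈ I q by rw [hFn i hi]; exact hq)]
    rw [hT]
    cases s q
    · change ent ((1 : Matrix (Fin 2) (Fin 2) (BX (XT τ))) a b - opC (XT τ)
        (bottE (UpathI τ (I q) m) (VpathI τ (I q) m) a b)) i j =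
        if i = j then (1 : Matrix (Fin 2) (Fin 2) ℂ) a b - e11 ℂ a b else 0
      have h2 : ent ((1 : Matrix (Fin 2) (Fin 2) (BX (XT τ))) a b) i j =
          if i = j then (1 : Matrix (Fin 2) (Fin 2) ℂ) a b else 0 := by
        by_cases hab : a = b
        · subst hab
          rw [one_apply_eq, one_apply_eq, ent_one]
          by_cases hij : i = j
          · rw [if_pos hij, if_pos hij]
          · rw [if_neg hij, if_neg hij]
        · rw [one_apply_ne hab, one_apply_ne hab, ent_zero, ite_self]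
      rw [sub_eq_add_neg, ← neg_one_smul ℂ, ent_add, ent_smul, h1, h2]
      by_cases hij : i = j
      · rw [if_pos hij, if_pos hij, if_pos hij]
        ring
      · rw [if_neg hij, if_neg hij, if_neg hij]
        ring
    · exact h1
  have hmap : (stabF k fun q => sgnM (s q) ((EI τ (I q) r hr).map φ)).map (S.ev m) =
      stabF k T := stabF_map ((S.ev m : A →⋆ₐ[ℂ] BX (XT τ)) : A →+* BX (XT τ)) k _
  rw [hmap] at hc2
  have hdvd : ((11 ^ n : ℕ) : ℤ) ∣ Fintype.card {q // n ∈ I q} * sgn := by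
    refine hcore τ (Ix2 N k) r n D hr (by omega) hD (Fintype.card {q // n ∈ I q} * sgn)
      χ hχ b c hbc BI B1 B2 hBI hB1 hB2 KM
      hKM (by omega) (by omega) (by omega) 𝓖 hφ hQ hM hQc hK F hFg
      (fF k fun q => sgnM (s q) (e11 ℂ)) (fF_idem k hw)
      (fF_star k fun q => sgnM_e11_star (s q)) (cutM F (fromBlocks (stabF k T) 0 0 0)) ?_ ?_
      U U' hUU hUU' hU hU' hc1 hc2
    · rintro ⟨i, x⟩ ⟨j, y⟩ hxy
      have hoff : ¬ ∃ (n' : {n : ℕ // 3 ≤ n}) (p q : Grid (sd n'.1 m)),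
          (i : XT τ × ℕ) = ji τ m ⟨n', p⟩ ∧ (j : XT τ × ℕ) = ji τ m ⟨n', q⟩ := by
        rintro ⟨n', p, q, -, hq⟩
        apply hxy
        change ∃ x ∈ (pos (j : XT τ × ℕ)).1.support, x.l = 0
        rw [hq, pos_ji]
        exact ⟨_, vtx_mem_gpt τ n'.1 m q, rfl⟩
      rw [scM_apply]
      by_cases hx : beiCpy x = none
      · exact cut_none N k F T _ _ _ (Or.inl hx)
      by_cases hy : beiCpy y = none
      · exact cut_none N k F T _ _ _ (Or.inr hy)
      obtain ⟨⟨q, a⟩, hp⟩ := Option.ne_none_iff_exists'.1 hx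
      obtain ⟨⟨q', b⟩, hp'⟩ := Option.ne_none_iff_exists'.1 hy
      obtain rfl := bei_cpy_some hp
      obtain rfl := bei_cpy_some hp'
      rw [cut_some, fF_some]
      by_cases hq : q = q'
      · subst hq
        simp only [if_true]
        by_cases hqI : n ∈ I q
        · rw [hT1 q hqI a b i i.2 j j.2, ent_path_off τ m a b _ _ hoff, hs q hqI]
          by_cases hij : i = j
          · rw [if_pos hij, if_pos (congrArg Subtype.val hij)]
            rfl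
          · rw [if_neg hij, if_neg (fun h' => hij (Subtype.ext h'))]
        · rw [hT2 q hqI a b i i.2 j j.2]
          by_cases hij : i = j
          · rw [if_pos hij, if_pos (congrArg Subtype.val hij)]
          · rw [if_neg hij, if_neg (fun h' => hij (Subtype.ext h'))]
      · simp only [if_neg hq, ite_self]
    · intro j hj
      exact low_rankF hn16 sgn BI B2 hBI hB2 F hFg hgrid hcoc
        (fun j hj => (hm₀ j m (hm2 j hj)).1) (fun j hj => (hm₀ j m (hm2 j hj)).2)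
        (fun q => n ∈ I q) hw (fun q => sgnM_e11_star (s q))
        (fun q hq => by rw [hs q hq]; rfl) hT1 hT2 j hj
  have h1 : ((11 ^ n : ℕ) : ℤ) ∣ Fintype.card {q // n ∈ I q} := by
    rcases hsgn with h | h
    · rw [h, mul_one] at hdvd
      exact hdvd
    · rw [h, mul_neg, mul_one, dvd_neg] at hdvd
      exact hdvd
  have h2 : (11 ^ n : ℕ) ∣ Fintype.card {q // n ∈ I q} := by exact_mod_cast h1
  convert h2

end Main

end Vale.Agent.P212.H268
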