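import Vale.Agent.P212.H268.G

/-! Linear independence of a continuum of classes. -/

namespace Vale.Agent.P212.H268

open Vale.Agent.P212 NNReal Matrix
open scoped Matrix.Norms.L2Operator Kronecker

/-- The set of codes of the initial segments of a binary sequence. -/
def seg (α : ℕ → Bool) : Set ℕ := Set.range fun k : ℕ => Encodable.encode ((List.range k).map α)

theorem seg_infinite (α : ℕ → Bool) : (seg α).Infinite := by
  refine Set.infinite_range_of_injective fun k k' h => ?_
  have h1 := congrArg List.length (Encodable.encode_injective h)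
  simpa using h1

theorem seg_inter_finite {α β : ℕ → Bool} (h : α ≠ β) : (seg α ∩ seg β).Finite := by
  obtain ⟨m, hm⟩ := Function.ne_iff.1 h
  refine ((Set.finite_Iic m).image
    (fun k => Encodable.encode ((List.range k).map α))).subset ?_
  rintro n ⟨⟨k, rfl⟩, ⟨k', hk'⟩⟩
  have h1 := Encodable.encode_injective hk'
  have h2 : k' = k := by simpa using congrArg List.length h1
  subst h2
  refine ⟨k', ?_, rfl⟩
  by_contra hlt
  have hlt' : m < k' := not_le.1 hlt
  apply hm
  have h3 := congrArg (fun l : List Bool => l[m]?) h1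
  simpa [List.getElem?_map, List.getElem?_range hlt'] using h3.symm

variable {τ : Tower}

section Cls

variable (τ) {A : Type} [Ring A] [StarRing A] [Algebra ℂ A] {r : ℝ}

/-- The classes given by the Bott projections over the components with index in `I`. -/
noncomputable def yC (hr : 2 ≤ r) (φ : locU (XT τ) r →+* A) (I : Set ℕ) : K0 A :=
  K0.cls ((EI τ I r hr).map φ)
    (mapMat_idem φ (EI_idem τ I r hr)) - K0.cls (e11 A) (e11_idem A)

omit [StarRing A] in
theorem cls_sgn_sub (hr : 2 ≤ r) (φ : locU (XT τ) r →+* A) (I : Set ℕ) (s : Bool)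
    (hW : sgnM s ((EI τ I r hr).map φ) * sgnM s ((EI τ I r hr).map φ) =
      sgnM s ((EI τ I r hr).map φ))
    (he : (sgnM s (e11 ℂ)).map (algebraMap ℂ A) *
      (sgnM s (e11 ℂ)).map (algebraMap ℂ A) = (sgnM s (e11 ℂ)).map (algebraMap ℂ A)) :
    K0.cls (sgnM s ((EI τ I r hr).map φ)) hW -
      K0.cls ((sgnM s (e11 ℂ)).map (algebraMap ℂ A)) he =
      (if s then 1 else -1 : ℤ) • yC τ hr φ I := by
  have h1 : (sgnM s (e11 ℂ)).map (algebraMap ℂ A) = sgnM s (e11 A) := by
    rw [sgnM_map (algebraMap ℂ A), e11_map]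
  have h2 := K0.cls_congr he h1
  rw [h2]
  have h3 := cls_sgnM s (mapMat_idem φ (EI_idem τ I r hr))
  have h4 := cls_sgnM s (e11_idem A)
  refine (congrArg₂ (fun x y : K0 A => x - y) h3 h4).trans ?_
  cases s
  · simp only [Bool.false_eq_true, if_false, yC]
    rw [neg_smul, one_smul]
    abel
  · simp only [if_true, yC, one_smul]

end Cls

theorem sum_copies {G Λ : Type} [AddCommGroup G] (T : Finset Λ) (c : Λ → ℤ) (y : Λ → G) :
    ∑ z : (Σ α : T, Fin (c α.1).natAbs), (if 0 < c z.1.1 then 1 else -1 : ℤ) • y z.1.1 =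
      ∑ α ∈ T, c α • y α := by
  rw [Fintype.sum_sigma, ← Finset.sum_coe_sort T (fun α => c α • y α)]
  refine Finset.sum_congr rfl fun α _ => ?_
  change ∑ _x : Fin (c α.1).natAbs, (if 0 < c α.1 then 1 else -1 : ℤ) • y α.1 = _
  rw [Finset.sum_const, Finset.card_univ, Fintype.card_fin, ← natCast_zsmul, smul_smul]
  congr 1
  split_ifs with hc
  · rw [mul_one, Int.natCast_natAbs, abs_of_pos hc]
  · rw [mul_neg, mul_one, Int.natCast_natAbs, abs_of_nonpos (not_lt.1 hc), neg_neg]

/-- The classes are linearly independent. -/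
theorem lin_indep_aux (r : ℕ) (hr : (2 : ℝ) ≤ r) {A : Type} [Ring A] [StarRing A] [Algebra ℂ A]
    (S : LocSys (XT τ) r A) (φ : locU (XT τ) r →+* A)
    (hev : ∀ t a, S.ev t (φ a) = (locSys (XT τ) r).ev t a)
    (haug : ∀ a, S.aug (φ a) = augL (XT τ) r a)
    (T : Finset (ℕ → Bool)) (c : (ℕ → Bool) → ℤ)
    (h : ∑ α ∈ T, c α • yC τ hr φ (seg α) = 0) (β : ℕ → Bool) (hβT : β ∈ T) (hβ : 0 < c β) :
    False := by
  classical
  let Q : Type := Σ α : T, Fin (c α.1).natAbs
  let e : Fin (Fintype.card Q) ≃ Q := (Fintype.equivFin Q).symm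
  let I : Fin (Fintype.card Q) → Set ℕ := fun q => seg (e q).1.1
  let s : Fin (Fintype.card Q) → Bool := fun q => decide (0 < c (e q).1.1)
  have hW : ∀ q, sgnM (s q) ((EI τ (I q) r hr).map φ) * sgnM (s q) ((EI τ (I q) r hr).map φ) =
      sgnM (s q) ((EI τ (I q) r hr).map φ) := fun q =>
    sgnM_idem (s q) (mapMat_idem φ (EI_idem τ (I q) r hr))
  have he : ∀ q, (sgnM (s q) (e11 ℂ)).map (algebraMap ℂ A) *
      (sgnM (s q) (e11 ℂ)).map (algebraMap ℂ A) = (sgnM (s q) (e11 ℂ)).map (algebraMap ℂ A) :=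
    fun q => mapMat_idem (algebraMap ℂ A) (sgnM_idem (s q) (e11_idem ℂ))
  have hrel : ∑ q, K0.cls (sgnM (s q) ((EI τ (I q) r hr).map φ)) (hW q) =
      ∑ q, K0.cls ((sgnM (s q) (e11 ℂ)).map (algebraMap ℂ A)) (he q) := by
    rw [← sub_eq_zero, ← Finset.sum_sub_distrib]
    have h1 : ∀ q, K0.cls (sgnM (s q) ((EI τ (I q) r hr).map φ)) (hW q) -
        K0.cls ((sgnM (s q) (e11 ℂ)).map (algebraMap ℂ A)) (he q) =
        (fun z : Q => (if 0 < c z.1.1 then 1 else -1 : ℤ) • yC τ hr φ (seg z.1.1)) (e q) := by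
      intro q
      rw [cls_sgn_sub]
      simp only [s, decide_eq_true_eq]
      rfl
    refine (Finset.sum_congr rfl fun q _ => h1 q).trans ((Equiv.sum_comp e
      (fun z : Q => (if 0 < c z.1.1 then 1 else -1 : ℤ) • yC τ hr φ (seg z.1.1))).trans ?_)
    exact (sum_copies T c fun α => yC τ hr φ (seg α)).trans h
  obtain ⟨n₀, hn₀⟩ := dvd_of_rel r hr S φ hev haug I s hW he hrel
  -- a component over which only one set is relevant
  have hfin : (⋃ α ∈ (T.erase β : Finset (ℕ → Bool)), (seg β ∩ seg α)).Finite := by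
    refine Set.Finite.biUnion (Finset.finite_toSet _) fun α hα => ?_
    exact seg_inter_finite (Finset.ne_of_mem_erase hα).symm
  obtain ⟨n, hn, hn'⟩ := ((seg_infinite β).sdiff (hfin.union
    (Set.finite_Iio (n₀ + (c β).natAbs)))).nonempty
  rw [Set.mem_union, not_or, Set.mem_Iio, not_lt] at hn'
  have honly : ∀ α ∈ T, n ∈ seg α → α = β := by
    intro α hα hnα
    by_contra hne
    exact hn'.1 (Set.mem_biUnion (Finset.mem_coe.2 (Finset.mem_erase.2 ⟨hne, hα⟩)) ⟨hn, hnα⟩)
  have h1 := hn₀ n (by omega) (fun q hq => by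
    have h2 := honly (e q).1.1 (e q).1.2 hq
    simp only [s, decide_eq_true_eq, h2]
    exact hβ)
  have hcard : Fintype.card {q // n ∈ I q} = (c β).natAbs := by
    let b' : T := ⟨β, hβT⟩
    have e1 : {q // n ∈ I q} ≃ Fin (c β).natAbs :=
      (e.subtypeEquiv (q := fun z : Q => z.1 = b') (fun q => by
        constructor
        · intro hq
          exact Subtype.ext (honly (e q).1.1 (e q).1.2 hq)
        · intro hq
          change n ∈ seg (e q).1.1
          rw [hq]
          exact hn)).trans (Equiv.sigmaSubtype (β := fun α : T => Fin (c α.1).natAbs) b')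
    rw [Fintype.card_congr e1, Fintype.card_fin]
  rw [hcard] at h1
  have h2 := Nat.le_of_dvd (Int.natAbs_pos.2 hβ.ne') h1
  have h3 : n < 11 ^ n := Nat.lt_pow_self (by norm_num)
  omega

/-- The classes are linearly independent. -/
theorem lin_indep (r : ℕ) (hr : (2 : ℝ) ≤ r) {A : Type} [Ring A] [StarRing A] [Algebra ℂ A]
    (S : LocSys (XT τ) r A) (φ : locU (XT τ) r →+* A)
    (hev : ∀ t a, S.ev t (φ a) = (locSys (XT τ) r).ev t a)
    (haug : ∀ a, S.aug (φ a) = augL (XT τ) r a)
    (T : Finset (ℕ → Bool)) (c : (ℕ → Bool) → ℤ)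
    (h : ∑ α ∈ T, c α • yC τ hr φ (seg α) = 0) : ∀ α ∈ T, c α = 0 := by
  intro β hβ
  rcases lt_trichotomy (c β) 0 with h1 | h1 | h1
  · exfalso
    refine lin_indep_aux r hr S φ hev haug T (fun α => - c α) ?_ β hβ (by omega)
    rw [← neg_eq_zero, ← Finset.sum_neg_distrib]
    simpa using h
  · exact h1
  · exact (lin_indep_aux r hr S φ hev haug T c h β hβ h1).elim

end Vale.Agent.P212.H268
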