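import Vale.Agent.P212.BJudge

namespace Vale.Agent.P212

open NNReal Matrix

/-- `A`, with `i : ℂ[X] → A`, is the completion of `ℂ[X]` in some C*-norm which is at least the
operator norm on `l^2(X) ⊗ l^2(ℕ)`. -/
def IsRoeCompletion {X : Type} [MetricSpace X] {H : Type} [NormedAddCommGroup H]
    [InnerProductSpace ℂ H] [CompleteSpace H] (b : HilbertBasis (X × ℕ) ℂ H)
    {A : Type} [NonUnitalCStarAlgebra A] (i : (H →L[ℂ] H) → A) : Prop :=
  StarHomOn (IsRoeOp b) i ∧ Dense (i '' {T | IsRoeOp b T}) ∧ ∀ T, IsRoeOp b T → ‖T‖ ≤ ‖i T‖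

/-- `A`, with `i : ℂ[X] → A`, is the Roe algebra `C*(X)`: the completion of `ℂ[X]` in the
operator norm on `l^2(X) ⊗ l^2(ℕ)`. -/
def IsReducedRoe {X : Type} [MetricSpace X] {H : Type} [NormedAddCommGroup H]
    [InnerProductSpace ℂ H] [CompleteSpace H] (b : HilbertBasis (X × ℕ) ℂ H)
    {A : Type} [NonUnitalCStarAlgebra A] (i : (H →L[ℂ] H) → A) : Prop :=
  StarHomOn (IsRoeOp b) i ∧ Dense (i '' {T | IsRoeOp b T}) ∧ ∀ T, IsRoeOp b T → ‖i T‖ = ‖T‖

/-- The kernel of the assembly map `KX_0(X) → K_0(A)` contains elements `[e a] - [f a]`,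
`a ∈ Λ`, which are linearly independent over the integers: if, in `K_0(C*_L(P_s(X)))` for some
`s ≥ r`, the sum of `[e (u j)] - [f (u j)]` over `j < N` equals the sum of
`[e (v j)] - [f (v j)]` over `j < M`, then each `a` occurs in `u` as often as in `v`. -/
def IndepInKernel {X : Type} [MetricSpace X] {H : Type} [NormedAddCommGroup H]
    [InnerProductSpace ℂ H] {A : Type} [NonUnitalCStarAlgebra A]
    (b : HilbertBasis (X × ℕ) ℂ H) (i : (H →L[ℂ] H) → A) (p : X × ℕ → X →₀ ℚ)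
    (Λ : Type) : Prop :=
  ∃ (r : ℝ) (n : ℕ) (e f : Λ → Matrix (Fin n) (Fin n) (ℝ≥0 → Unitization ℂ A)),
    (∀ a, (∀ j k, IsLoc b i p r (e a j k) ∧ IsLoc b i p r (f a j k)) ∧
      e a * e a = e a ∧ f a * f a = f a ∧
      SameK (fun _ => True) ((e a).map fun F => (F 0).fst) ((f a).map fun F => (F 0).fst) ∧
      SameK (fun _ => True) ((e a).map fun F => F 0) ((f a).map fun F => F 0)) ∧
    ∀ s ≥ r, ∀ (N M : ℕ) (u : Fin N → Λ) (v : Fin M → Λ),
      SameK (IsLoc b i p s)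
        (fromBlocks (blockDiagonal fun j => e (u j)) 0 0 (blockDiagonal fun j => f (v j)))
        (fromBlocks (blockDiagonal fun j => f (u j)) 0 0 (blockDiagonal fun j => e (v j))) →
      ∀ a, Nat.card {j // u j = a} = Nat.card {j // v j = a}

end Vale.Agent.P212
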