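import Vale.Agent.P212.H268.H
import Vale.Agent.P212.H268.Judge
import Vale.Agent.P212.H35.Red

/-! The kernel of the assembly map contains a continuum of linearly independent elements. -/

namespace Vale.Agent.P212.H268

open Vale.Agent.P212 Vale.Agent.P212.H35 NNReal BoundedContinuousFunction Matrix
open scoped Matrix.Norms.L2Operator Kronecker

section Blocks

variable {R S : Type} [Ring R] [Ring S]

theorem blockDiag_idem {N : ℕ} {W : Fin N → Matrix (Fin 2) (Fin 2) R}
    (hW : ∀ q, W q * W q = W q) : blockDiagonal W * blockDiagonal W = blockDiagonal W := by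
  rw [← blockDiagonal_mul]
  simp [hW]

theorem cls_blockDiag {N : ℕ} {W : Fin N → Matrix (Fin 2) (Fin 2) R}
    (hW : ∀ q, W q * W q = W q) :
    K0.cls (blockDiagonal W) (blockDiag_idem hW) = ∑ q, K0.cls (W q) (hW q) := by
  rw [← cls_famD hW (famD_idem hW)]
  have h1 : blockDiagonal W = (famD W).submatrix
      (Equiv.prodComm (Fin 2) (Fin N)) (Equiv.prodComm (Fin 2) (Fin N)) := by
    ext a b
    simp [famD, blockDiagonal_apply]
  rw [K0.cls_congr _ h1, K0.cls_submatrix]

/-- The block matrices of a relation. -/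
theorem sameK_blocks_iff {N M : ℕ} {W W' : Fin N → Matrix (Fin 2) (Fin 2) R}
    {V V' : Fin M → Matrix (Fin 2) (Fin 2) R}
    (hW : ∀ q, W q * W q = W q) (hW' : ∀ q, W' q * W' q = W' q)
    (hV : ∀ q, V q * V q = V q) (hV' : ∀ q, V' q * V' q = V' q) :
    SameK (fun _ => True) (fromBlocks (blockDiagonal W) 0 0 (blockDiagonal V))
      (fromBlocks (blockDiagonal W') 0 0 (blockDiagonal V')) ↔
    ∑ q, K0.cls (W q) (hW q) + ∑ q, K0.cls (V q) (hV q) =
      ∑ q, K0.cls (W' q) (hW' q) + ∑ q, K0.cls (V' q) (hV' q) := by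
  rw [sameK_true_iff (blocks_idem (blockDiag_idem hW) (blockDiag_idem hV))
    (blocks_idem (blockDiag_idem hW') (blockDiag_idem hV')),
    K0.cls_blocks (blockDiag_idem hW) (blockDiag_idem hV),
    K0.cls_blocks (blockDiag_idem hW') (blockDiag_idem hV'),
    cls_blockDiag hW, cls_blockDiag hV, cls_blockDiag hW', cls_blockDiag hV']

theorem blocks_map (φ : R →+* S) {N M : ℕ} (W : Fin N → Matrix (Fin 2) (Fin 2) R)
    (V : Fin M → Matrix (Fin 2) (Fin 2) R) :
    (fromBlocks (blockDiagonal W) 0 0 (blockDiagonal V)).map φ =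
      fromBlocks (blockDiagonal fun q => (W q).map φ) 0 0
        (blockDiagonal fun q => (V q).map φ) := by
  rw [fromBlocks_map, Matrix.blockDiagonal_map _ _ (map_zero φ),
    Matrix.blockDiagonal_map _ _ (map_zero φ), Matrix.map_zero _ (map_zero φ),
    Matrix.map_zero _ (map_zero φ)]

end Blocks

section Cls

variable {τ : Tower} {A : Type} [NonUnitalCStarAlgebra A] {i : BX (XT τ) → A} (hi : Cpl i)

/-- The Bott projections over the localization algebra of the completion. -/
noncomputable def EIA (I : Set ℕ) (r : ℝ) (hr : 2 ≤ r) : Matrix (Fin 2) (Fin 2) (LA hi r) :=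
  (EI τ I r hr).map (eta hi r)

theorem EIA_idem (I : Set ℕ) (r : ℝ) (hr : 2 ≤ r) :
    EIA hi I r hr * EIA hi I r hr = EIA hi I r hr := by
  rw [EIA, ← Matrix.map_mul, EI_idem]

theorem EIA_aug (I : Set ℕ) (r : ℝ) (hr : 2 ≤ r) :
    (EIA hi I r hr).map (augA hi r) = e11 ℂ := by
  rw [← EI_aug τ I r hr]
  ext a b
  exact sysA_aug_eta hi r _

theorem EIA_incl (I : Set ℕ) {r r' : ℝ} (hr : 2 ≤ r) (h : r ≤ r') :
    (EIA hi I r hr).map (inclA hi h) = EIA hi I r' (hr.trans h) := by
  refine Matrix.ext fun a b => Subtype.ext (funext fun t => ?_)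
  change kapU hi ((EI τ I r hr a b : ℝ≥0 →ᵇ CM (gX (XT τ))) t) =
    kapU hi ((EI τ I r' (hr.trans h) a b : ℝ≥0 →ᵇ CM (gX (XT τ))) t)
  rw [EI_spec, EI_spec]

/-- Linear independence in the form of equality of sums. -/
theorem indep_sums (r : ℕ) (hr : (2 : ℝ) ≤ r) {N M : ℕ} (u : Fin N → ℕ → Bool)
    (v : Fin M → ℕ → Bool)
    (h : ∑ q, K0.cls (EIA hi (seg (u q)) r hr) (EIA_idem hi _ r hr) +
        ∑ _q : Fin M, K0.cls (e11 (LA hi r)) (e11_idem _) =
      ∑ _q : Fin N, K0.cls (e11 (LA hi r)) (e11_idem _) +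
        ∑ q, K0.cls (EIA hi (seg (v q)) r hr) (EIA_idem hi _ r hr)) (a : ℕ → Bool) :
    Nat.card {j // u j = a} = Nat.card {j // v j = a} := by
  classical
  have h1 : ∑ q, yC τ hr (eta hi r) (seg (u q)) = ∑ q, yC τ hr (eta hi r) (seg (v q)) := by
    have h2 : ∀ I : Set ℕ, yC τ hr (eta hi r) I =
      K0.cls (EIA hi I r hr) (EIA_idem hi _ r hr) - K0.cls (e11 (LA hi r)) (e11_idem _) :=
      fun I => rfl
    simp only [h2, Finset.sum_sub_distrib]
    rw [sub_eq_sub_iff_add_eq_add, h, add_comm]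
  set T : Finset (ℕ → Bool) := Finset.univ.image u ∪ Finset.univ.image v with hT
  set c : (ℕ → Bool) → ℤ := fun α => (Finset.univ.filter fun j => u j = α).card -
    (Finset.univ.filter fun j => v j = α).card with hc
  have hsum : ∀ {K : ℕ} (w : Fin K → ℕ → Bool), (∀ j, w j ∈ T) →
      ∑ q, yC τ hr (eta hi r) (seg (w q)) =
        ∑ α ∈ T, ((Finset.univ.filter fun j => w j = α).card : ℤ) •
          yC τ hr (eta hi r) (seg α) := by
    intro K w hw
    rw [← Finset.sum_fiberwise_of_maps_to (fun j _ => hw j)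
      (fun q => yC τ hr (eta hi r) (seg (w q)))]
    refine Finset.sum_congr rfl fun α _ => ?_
    rw [Finset.sum_congr rfl fun q hq => by rw [(Finset.mem_filter.1 hq).2],
      Finset.sum_const, natCast_zsmul]
  have h0 : ∑ α ∈ T, c α • yC τ hr (eta hi r) (seg α) = 0 := by
    simp only [hc, sub_smul, Finset.sum_sub_distrib]
    rw [← hsum u fun j => Finset.mem_union_left _ (Finset.mem_image_of_mem u (Finset.mem_univ j)),
      ← hsum v fun j => Finset.mem_union_right _ (Finset.mem_image_of_mem v (Finset.mem_univ j)),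
      h1, sub_self]
  have hmain := lin_indep r hr (sysA hi r) (eta hi r) (fun t a => sysA_ev_eta hi r t a)
    (fun a => sysA_aug_eta hi r a) T c h0
  have hcard : (Finset.univ.filter fun j => u j = a).card =
      (Finset.univ.filter fun j => v j = a).card := by
    by_cases ha : a ∈ T
    · have h2 := hmain a ha
      simp only [hc] at h2
      omega
    · rw [hT, Finset.mem_union, not_or, Finset.mem_image, Finset.mem_image] at ha
      have h3 : (Finset.univ.filter fun j => u j = a) = ∅ := by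
        rw [Finset.filter_eq_empty_iff]
        exact fun j _ hj => ha.1 ⟨j, Finset.mem_univ j, hj⟩
      have h4 : (Finset.univ.filter fun j => v j = a) = ∅ := by
        rw [Finset.filter_eq_empty_iff]
        exact fun j _ hj => ha.2 ⟨j, Finset.mem_univ j, hj⟩
      rw [h3, h4]
      rfl
  rw [Nat.card_eq_fintype_card, Nat.card_eq_fintype_card, Fintype.card_subtype,
    Fintype.card_subtype, hcard]

end Cls

section Main

variable (τ : Tower) {A : Type} [NonUnitalCStarAlgebra A]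

theorem exists_inj_real : ∃ ι : ℝ → ℕ → Bool, Function.Injective ι := by
  have h : Cardinal.mk ℝ = Cardinal.mk (ℕ → Bool) := by
    rw [Cardinal.mk_real]
    simp
  obtain ⟨e⟩ := Cardinal.eq.1 h
  exact ⟨e, e.injective⟩

theorem indep_std {i : BX (XT τ) → A} (hi : Cpl i) :
    IndepInKernel (stdB (XT τ × ℕ)) i pC ℝ := by
  have h2 : (2 : ℝ) ≤ 2 := le_rfl
  obtain ⟨ι, hι⟩ := exists_inj_real
  let V : (r : ℝ) → LA hi r →+* (ℝ≥0 → Unitization ℂ A) := fun r =>
    ((LA hi r).subtype : LA hi r →+* (ℝ≥0 → Unitization ℂ A))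
  have hV : ∀ r, Function.Injective (V r) := fun r => Subtype.val_injective
  refine ⟨2, 2, fun a => (EIA hi (seg (ι a)) 2 h2).map (V 2),
    fun _ => (e11 (LA hi 2)).map (V 2), fun a => ⟨fun j k =>
      ⟨(EIA hi (seg (ι a)) 2 h2 j k).2, (e11 (LA hi 2) j k).2⟩, ?_, ?_, ?_, ?_⟩, ?_⟩
  · rw [← Matrix.map_mul, EIA_idem]
  · rw [← Matrix.map_mul, e11_idem]
  · have h3 : ∀ M : Matrix (Fin 2) (Fin 2) (LA hi 2),
        (M.map (V 2)).map (fun F => (F 0).fst) = M.map (augA hi 2) := fun M => rfl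
    rw [h3, h3, EIA_aug]
    have h5 : (e11 (LA hi 2)).map (augA hi 2) = e11 ℂ :=
      e11_map (augA hi 2 : LA hi 2 →+* ℂ)
    rw [h5]
    exact (sameK_true_iff (e11_idem ℂ) (e11_idem ℂ)).2 rfl
  · have h3 : ((EIA hi (seg (ι a)) 2 h2).map (V 2)).map (fun F => F 0) =
        (bottE (UpathI τ (seg (ι a)) 0) (VpathI τ (seg (ι a)) 0)).map (kapU hi) := by
      apply Matrix.ext
      intro x y
      exact congrArg (kapU hi) (EI_spec τ (seg (ι a)) 2 h2 0 x y)
    have h4 : ((e11 (LA hi 2)).map (V 2)).map (fun F => F 0) =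
        (e11 (CM (gX (XT τ)))).map (kapU hi) := by
      rw [e11_map, e11_map]
      have e := e11_map (Pi.evalRingHom (fun _ : ℝ≥0 => Unitization ℂ A) 0)
      exact e
    rw [h3, h4]
    refine SameK.map_true _ ?_
    exact (sameK_true_iff (bottE_pathI_idem τ _ 0) (e11_idem _)).2 (cls_bottI_zero τ _)
  · intro s hs N M u v hrel a
    have hs1 : s ≤ ((⌈s⌉₊ : ℕ) : ℝ) := Nat.le_ceil s
    have hs2 : (2 : ℝ) ≤ ((⌈s⌉₊ : ℕ) : ℝ) := (show (2 : ℝ) ≤ s from hs).trans hs1
    set s' : ℕ := ⌈s⌉₊ with hs'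
    have hrel' : SameK (IsLoc (stdB (XT τ × ℕ)) i pC (s' : ℝ))
        (fromBlocks (blockDiagonal fun j => (EIA hi (seg (ι (u j))) 2 h2).map (V 2)) 0 0
          (blockDiagonal fun _ : Fin M => (e11 (LA hi 2)).map (V 2)))
        (fromBlocks (blockDiagonal fun _ : Fin N => (e11 (LA hi 2)).map (V 2)) 0 0
          (blockDiagonal fun j => (EIA hi (seg (ι (v j))) 2 h2).map (V 2))) := by
      obtain ⟨m, x, y, hxy, e1, e2⟩ := hrel
      exact ⟨m, x, y, fun j k => ⟨LA_mono hi hs1 (hxy j k).1, LA_mono hi hs1 (hxy j k).2⟩,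
        e1, e2⟩
    have e1 : ∀ I : Set ℕ, (EIA hi I 2 h2).map (V 2) = (EIA hi I s' hs2).map (V s') := by
      intro I
      rw [← EIA_incl hi I h2 hs2]
      rfl
    have e2 : (e11 (LA hi 2)).map (V 2) = (e11 (LA hi s')).map (V s') := by
      rw [e11_map, e11_map]
    simp only [e1, e2] at hrel'
    rw [← blocks_map (V s'), ← blocks_map (V s')] at hrel'
    have h8 := SameK.lift (V s') (hV s') (fun F hF => ⟨⟨F, hF⟩, rfl⟩) hrel'
    rw [sameK_blocks_iff (fun q => EIA_idem hi _ s' hs2) (fun _ => e11_idem _)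
      (fun _ => e11_idem _) (fun q => EIA_idem hi _ s' hs2)] at h8
    have h9 := indep_sums hi s' hs2 (fun j => ι (u j)) (fun j => ι (v j)) h8 (ι a)
    have h10 : ∀ {K : ℕ} (w : Fin K → ℝ), Nat.card {j // ι (w j) = ι a} =
        Nat.card {j // w j = a} := by
      intro K w
      refine Nat.card_congr (Equiv.subtypeEquivRight fun j => ?_)
      exact hι.eq_iff
    rw [h10, h10] at h9
    exact h9

/-- For every completion of `ℂ[X]`, every Hilbert space with basis and every placement, the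
kernel of the assembly map contains a continuum of linearly independent elements. -/
theorem indep_all {H : Type} [NormedAddCommGroup H] [InnerProductSpace ℂ H]
    [CompleteSpace H] (b : HilbertBasis (XT τ × ℕ) ℂ H) (i : (H →L[ℂ] H) → A)
    (p : XT τ × ℕ → XT τ →₀ ℚ) (h : IsRoeCompletion b i) (hp : IsPlacement p) :
    IndepInKernel b i p ℝ := by
  obtain ⟨i', g1, g2, g3, g4⟩ := exists_std b i p hp h.1 h.2.1 h.2.2
  have h := indep_std τ (i := i') ⟨g1, g2, g3⟩
  have eL : IsLoc b i p = IsLoc (stdB (XT τ × ℕ)) i' pC :=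
    funext fun r => funext fun F => propext (g4 r F)
  unfold IndepInKernel at h ⊢
  rw [eL]
  exact h

theorem isRoeCompletion_of_isMaxRoe {X : Type} [MetricSpace X] {H : Type}
    [NormedAddCommGroup H] [InnerProductSpace ℂ H] [CompleteSpace H]
    {b : HilbertBasis (X × ℕ) ℂ H} {i : (H →L[ℂ] H) → A} (h : IsMaxRoe b i) :
    IsRoeCompletion b i :=
  ⟨h.1, h.2.1, fun _ hT => norm_le_of_isMaxRoe h hT⟩

theorem isRoeCompletion_of_isReducedRoe {X : Type} [MetricSpace X] {H : Type}
    [NormedAddCommGroup H] [InnerProductSpace ℂ H] [CompleteSpace H]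
    {b : HilbertBasis (X × ℕ) ℂ H} {i : (H →L[ℂ] H) → A} (h : IsReducedRoe b i) :
    IsRoeCompletion b i :=
  ⟨h.1, h.2.1, fun T hT => (h.2.2 T hT).ge⟩

end Main

end Vale.Agent.P212.H268
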